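import Crest.Agent.X212.Hol14.Den

/-!
# Row 212, NT-ROW (helper11): the cokernel of the row of a cut at a reduction of flux `± 2π`
-/

set_option autoImplicit false
set_option linter.unusedSectionVars false
noncomputable section
open scoped Manifold ContDiff Topology InnerProductSpace Real
open Set Function Filter Module

namespace Crest.Agent.X212.Top11.Rw
open An Wz78 Hol14
open Fred93 (Fr)
open Abel74 (RedOn fm)

section abs
variable {H K K' : Type} [NormedAddCommGroup H] [InnerProductSpace ℝ H] [CompleteSpace H]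
  [NormedAddCommGroup K] [InnerProductSpace ℝ K] [CompleteSpace K]
  [NormedAddCommGroup K'] [InnerProductSpace ℝ K'] [CompleteSpace K']

theorem fix_of {A : H →L[ℝ] H} {P : H →L[ℝ] K} {j : K →L[ℝ] H} (h1 : ∀ χ, P (j χ) = χ)
    (c : ∀ v, j (P (A v)) = A (j (P v))) [FiniteDimensional ℝ A.ker] (h2 : finrank ℝ A.ker ≤ 2)
    (h3 : 2 ≤ finrank ℝ (P ∘L A ∘L j).ker) :
    finrank ℝ A.ker = 2 ∧ ∀ v, A v = 0 → j (P v) = v := by
  let f : (P ∘L A ∘L j).ker →ₗ[ℝ] A.ker := j.toLinearMap.restrict fun χ hχ => by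
    have := c (j χ)
    rw [h1, show P (A (j χ)) = 0 from hχ, map_zero] at this
    exact this.symm
  have i : Injective f := fun a b e => Subtype.ext <| by
    rw [← h1 a.1, ← h1 b.1]; exact congrArg (fun v : A.ker => P v.1) e
  have l := LinearMap.finrank_le_finrank_of_injective i
  have := FiniteDimensional.of_injective f i
  refine ⟨by omega, fun v hv => ?_⟩
  obtain ⟨χ, e⟩ := (LinearMap.injective_iff_surjective_of_finrank_eq_finrank (by omega)).1 i ⟨v, hv⟩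
  obtain rfl : j χ = v := congrArg Subtype.val e
  rw [h1]

theorem abs_row {L : H →L[ℝ] H} {P : H →L[ℝ] K} {j : K →L[ℝ] H} {P' : H →L[ℝ] K'}
    {j' : K' →L[ℝ] H} (h1 : ∀ χ, P (j χ) = χ) (h1' : ∀ χ, P' (j' χ) = χ)
    (c : ∀ v, j (P (L v)) = L (j (P v))) (c' : ∀ v, j' (P' (L v)) = L (j' (P' v)))
    (a' : ∀ v χ, ⟪P' v, χ⟫_ℝ = ⟪v, j' χ⟫_ℝ) (F : Fr L 0) (F₁ : Fr (P ∘L L ∘L j) (2 * 1))
    (F₂ : Fr (P' ∘L L ∘L j') (2 * -1)) {ψ φ : H} (n : ‖ψ‖ = 1) (h0 : L ψ = 0)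
    (hk : ∀ v, L v = 0 → ∃ a b : ℝ, v = a • ψ + b • φ) :
    j (P ψ) = ψ ∧ ∃ pr : H →ₗ[ℝ] Fin 2 → ℝ, (∀ v, pr v = 0 → ∃ η, ⟪ψ, η⟫_ℝ = 0 ∧ L η = v) ∧
      ∀ χ ≠ 0, ∃ u ≠ 0, j' (P' u) = u ∧ ∀ v, χ ⬝ᵥ pr v = ⟪v, u⟫_ℝ := by
  have := F.1.finite_ker
  have k2 : finrank ℝ L.ker ≤ 2 := by
    let f := (LinearMap.toSpanSingleton ℝ H ψ).coprod (LinearMap.toSpanSingleton ℝ H φ)
    refine (Submodule.finrank_mono (t := f.range) fun v hv => ?_).trans
      (f.finrank_range_le.trans_eq (by simp))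
    obtain ⟨a, b, e⟩ := hk v hv
    exact ⟨(a, b), e.symm⟩
  have hc : CompleteSpace L.range := F.1.isClosed_range.completeSpace_coe
  have o := ContinuousLinearMap.orthogonal_range L
  have : FiniteDimensional ℝ (ContinuousLinearMap.adjoint L).ker := by
    have : FiniteDimensional ℝ (H ⧸ L.range) := F.1.finite_coker
    rw [← o]
    exact L.range.quotientEquivOrthogonal.toLinearEquiv.finiteDimensional
  have e1 : ContinuousLinearMap.adjoint j' = P' :=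
    ((ContinuousLinearMap.eq_adjoint_iff _ _).2 a').symm
  have e2 : ContinuousLinearMap.adjoint P' = j' := by rw [← e1, ContinuousLinearMap.adjoint_adjoint]
  have d := (ind_adjoint F.1).unique F
  have d₂ := (ind_adjoint F₂.1).unique F₂
  rw [ContinuousLinearMap.adjoint_comp, ContinuousLinearMap.adjoint_comp, e1, e2,
    ContinuousLinearMap.comp_assoc] at d₂
  have q : ∀ v w, ⟪j' (P' v), w⟫_ℝ = ⟪v, j' (P' w)⟫_ℝ := fun v w => by
    rw [← a', real_inner_comm, ← a', real_inner_comm]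
  obtain ⟨t, fx⟩ := fix_of (A := ContinuousLinearMap.adjoint L) h1' (fun v =>
    ext_inner_right ℝ fun w => by
      rw [q, ContinuousLinearMap.adjoint_inner_left, ContinuousLinearMap.adjoint_inner_left, q, c'])
    (by omega) (by omega)
  let b := finBasisOfFinrankEq ℝ _ t
  refine ⟨(fix_of h1 c k2 (by have := F₁.le_finrank_ker; omega)).2 ψ h0,
    LinearMap.pi fun i => (innerSL ℝ (b i : H)).toLinearMap, fun v hv => ?_, fun χ hχ =>
    ⟨(b.equivFun.symm χ : H), fun e => hχ (b.equivFun.symm.map_eq_zero_iff.1 (Subtype.ext e)),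
      fx _ (b.equivFun.symm χ).2, fun v => ?_⟩⟩
  · obtain ⟨η, e⟩ : v ∈ L.range := by
      rw [← L.range.orthogonal_orthogonal, o, Submodule.mem_orthogonal]
      intro w hw
      rw [show w = ∑ i, b.repr ⟨w, hw⟩ i • (b i : H) from (congrArg Subtype.val
        (b.sum_repr ⟨w, hw⟩)).symm.trans (Submodule.coe_sum _ _ _), sum_inner]
      exact Finset.sum_eq_zero fun i _ => by
        rw [real_inner_smul_left, show ⟪(b i : H), v⟫_ℝ = 0 from congrFun hv i, mul_zero]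
    refine ⟨η - ⟪ψ, η⟫_ℝ • ψ, ?_, ?_⟩
    · rw [inner_sub_right, real_inner_smul_right, real_inner_self_eq_norm_sq, n]; ring
    · rw [map_sub, map_smul, h0, smul_zero, sub_zero]; exact e
  · rw [Basis.equivFun_symm_apply, Submodule.coe_sum, inner_sum]
    exact Finset.sum_congr rfl fun i _ => by
      rw [Submodule.coe_smul, real_inner_smul_right, real_inner_comm]; rfl

end abs

variable {E : Type} [NormedAddCommGroup E] [NormedSpace ℝ E] [FiniteDimensional ℝ E]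
  [MeasurableSpace E] [BorelSpace E]
  {HM : Type} [TopologicalSpace HM] {I : ModelWithCorners ℝ E HM} [I.Boundaryless]
  {M : Type} [TopologicalSpace M] [ChartedSpace HM M] [IsManifold I ∞ M] [T2Space M]
  [MeasurableSpace M] [BorelSpace M] [SecondCountableTopology M] {ι : Type} [Fintype ι]
  {lam : Type} [Fintype lam] {m : Md M ι lam} {B : Base M ι lam} {k : Cut M lam}
  {G : Geo I M ι lam} {W : m.Cn}

section
variable (hB : B.OK I) (H : m.OK I B) (hk : k.OK B G.F)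
include hB H hk

/-- elements of `g` outside the line of `η` move one half into the other -/
theorem cross {η n : m.A} (hη : η ∈ m.gS k.x0) (hs : opL η * opL η = -m.p k.x0)
    (hn : n ∈ m.gS k.x0) (h : ∀ u : ℝ, n ≠ u • η) {v : m.V} (hv : ph B k G.F η v = v)
    (h0 : v ≠ 0) : ph B k G.F (-η) (opL n v) ≠ 0 := fun z => by
  have S := (sub_ph hB H hk hη hs).hq
  have p1 : k.pi B G.F m k.x0 v = v := by rw [← hv, ← mul_apply_eq_comp, pi_ph hB H hk]
  have pv : m.p k.x0 v = v := by rw [← p1, ← mul_apply_eq_comp, p_pi (x := k.x0) hB H (hk.om 0 0)]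
  have e : ph B k G.F η (opL n v) = opL n v := by
    have := app (ph_add hB H hk η) (opL n v)
    rwa [add_apply, z, add_zero, ← mul_apply_eq_comp (k.pi B G.F m k.x0), ← g_pi H hn,
      mul_apply_eq_comp, p1] at this
  obtain ⟨c, hc⟩ := trans4 (X := ℂ) (by rw [rk_ph hB H hk hη hs, Complex.finrank_real_complex])
    (csL m.J).toLinearMap (v := v) (fun c => by
      change (ph B k G.F η * csE m.J c) v = _
      rw [← csE_comm S.comm, mul_apply_eq_comp, hv]; rfl) (fun c hc => by_contra fun c0 => h0 (by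
      have := congrArg (csE m.J c⁻¹) (show csE m.J c v = 0 from hc)
      rwa [← mul_apply_eq_comp, ← csE_mul S.sq, inv_mul_cancel₀ c0, csE_one, map_zero] at this)) e
  have x := app (xi_ph H hη hs (B := B) (F := G.F)) v
  rw [mul_apply_eq_comp, mul_apply_eq_comp, hv] at x
  have y := app (Std94.comm_norm hB (Std94.pmx H k.x0) (-c.re)
    (sub_mem hn (Submodule.smul_mem _ c.im hη))).1 v
  have y0 : ((-c.re) • m.p k.x0 + opL (n - c.im • η)) v = 0 := by
    rw [map_sub, map_smul, add_apply, sub_apply, smul_apply, smul_apply, pv, x, ← hc]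
    change _ + (c.re • v + c.im • m.J v - _) = _
    module
  rw [mul_apply_eq_comp, y0, map_zero, smul_apply, pv, eq_comm, smul_eq_zero_iff_left h0] at y
  exact h c.im (sub_eq_zero.1 (norm_eq_zero.1 (by
    nlinarith [sq_nonneg c.re, sq_nonneg ‖n - c.im • η‖])))

theorem row_pos (hG : G.OK B) (C : m.IsConn B G W) {ξ : M → m.A} (R : RedOn G.F m W k.supp ξ)
    (hf : flux I k (fm G.F m W ξ) = 2 * π) {σ : CL (k.H B m) (k.H B m)} (hσ : IsCompactOperator σ)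
    (c1 : Commute σ (cH m B k (ph B k G.F (ξ k.x0))))
    (c2 : Commute σ (cH m B k (ph B k G.F (-ξ k.x0)))) {ψ : k.H B m} (n1 : ‖ψ‖ = 1)
    (h0 : k.T B G.F m W ψ = σ ψ)
    (u : ∀ ψ', ‖ψ'‖ = 1 → k.T B G.F m W ψ' = σ ψ' → ∃ η : Circle, ψ' = cH m B k (csE m.J η) ψ) :
    ∃ pr : k.H B m →ₗ[ℝ] Fin 2 → ℝ,
      (∀ v, pr v = 0 → ∃ η, ⟪ψ, η⟫_ℝ = 0 ∧ (k.T B G.F m W - σ) η = v) ∧
      ∀ χ ≠ 0, ∀ n ∈ m.gS k.x0, (∀ u : ℝ, n ≠ u • ξ k.x0) → ∃ (a b : ℕ) (w : ℂ), χ ⬝ᵥ pr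
        (frk _ _ a b (k.pi B G.F m k.x0 * csE m.J w * opL n * k.pi B G.F m k.x0) ψ) ≠ 0 := by
  have R' := redOn_neg R
  have S := sub_ph' hB H hk (R.mem _ x0_mem) (R.sq _ x0_mem)
  have S' := sub_ph' hB H hk (R'.mem _ x0_mem) (R'.sq _ x0_mem)
  have cm : ∀ {ζ : M → m.A} (R : RedOn G.F m W k.supp ζ),
      Commute σ (cH m B k (ph B k G.F (ζ k.x0))) → ∀ v, cH m B k (ph B k G.F (ζ k.x0))
        ((k.T B G.F m W - σ) v) = (k.T B G.F m W - σ) (cH m B k (ph B k G.F (ζ k.x0)) v) :=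
    fun R c v => by
      rw [sub_apply, sub_apply, map_sub, ph_T hB H hk C R]
      exact congrArg _ (DFunLike.congr_fun c.eq v).symm
  obtain ⟨e, pr, p1, p2⟩ := abs_row (φ := JH _ _ ψ) S.proj_incl S'.proj_incl
    (fun v => by rw [S.incl_proj, S.incl_proj]; exact cm R c1 v)
    (fun v => by rw [S'.incl_proj, S'.incl_proj]; exact cm R' c2 v)
    (fun v χ => by rw [inner_rH, Sym.trn S'.hq.sym]) (fr_sub hB H hk (cn0_of C) hσ)
    (fr_half hB H hk C R hG (by simpa using hf) hσ)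
    (fr_half hB H hk C R' hG (by rw [Abel74.fm_neg, flux_neg, hf]; simp) hσ) n1 (sub_eq_zero.2 h0)
    fun v hv => by
      by_cases v0 : v = 0
      · exact ⟨0, 0, by simp [v0]⟩
      obtain ⟨η, e⟩ := u (‖v‖⁻¹ • v) (norm_smul_inv_norm v0) (by
        rw [map_smul, map_smul, show k.T B G.F m W v = σ v from sub_eq_zero.1 hv])
      rw [cH, rH_csE S.hp] at e
      exact ⟨‖v‖ * (η : ℂ).re, ‖v‖ * (η : ℂ).im, by
        rw [mul_smul, mul_smul, ← smul_add, ← e, smul_inv_smul₀ (norm_ne_zero_iff.2 v0)]⟩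
  refine ⟨pr, p1, fun χ hχ n hn hx => ?_⟩
  obtain ⟨z, z0, z1, z2⟩ := p2 χ hχ
  rw [S.incl_proj] at e
  rw [S'.incl_proj] at z1
  obtain ⟨b, hb⟩ := exists_fc_ne S.hp (ψ := ψ) (by rintro rfl; simp at n1)
  obtain ⟨a, ha⟩ := exists_fc_ne S.hp z0
  have f1 := S.fc_rH b ψ
  have f2 := S'.fc_rH a z
  rw [e] at f1
  rw [z1] at f2
  have P := sub_x0 hB H hk
  have g : ∀ {η : m.A} {v : m.V}, v = ph B k G.F η v → k.pi B G.F m k.x0 v = v := fun e => by
    rw [e, ← mul_apply_eq_comp, pi_ph hB H hk]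
  by_contra! hw
  refine ha (f2.trans (line_zero S'.hq (rk_ph hB H hk (R'.mem _ x0_mem) (R'.sq _ x0_mem))
    (cross hB H hk (R.mem _ x0_mem) (R.sq _ x0_mem) hn hx f1.symm hb) fun w => ?_))
  have := hw a b w
  rw [z2, orth_frk S.hp, mul_apply_eq_comp, mul_apply_eq_comp, mul_apply_eq_comp, g f1, P.hq.sym,
    g f2] at this
  rw [csE_comm S'.hq.comm, mul_apply_eq_comp, S'.hq.sym, ← f2, this]

end

/-- the text of `Nt66.RowStmt` -/
theorem row0 (B : Base M ι lam) (G : Geo I M ι lam) (m : Md M ι lam) (W : m.Cn)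
    (k : Cut M lam) (ξ : M → m.A) (σ : CL (k.H B m) (k.H B m)) (ψ : k.H B m) (hB : B.OK I)
    (hG : G.OK B) (H : m.OK I B) (C : m.IsConn B G W) (hk : k.OK B G.F)
    (R : RedOn G.F m W k.supp ξ) (hf : |flux I k (fm G.F m W ξ)| = 2 * π)
    (hσ : IsCompactOperator σ) (_ : Commute σ (JH m.J (m.pp B k.x0)))
    (c1 : Commute σ (cH m B k (ph B k G.F (ξ k.x0))))
    (c2 : Commute σ (cH m B k (ph B k G.F (-ξ k.x0)))) (n1 : ‖ψ‖ = 1)
    (h0 : k.T B G.F m W ψ = σ ψ)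
    (u : ∀ ψ', ‖ψ'‖ = 1 → k.T B G.F m W ψ' = σ ψ' → ∃ η : Circle, ψ' = cH m B k (csE m.J η) ψ) :
    ∃ pr : k.H B m →ₗ[ℝ] Fin 2 → ℝ,
      (∀ v, pr v = 0 → ∃ η, ⟪ψ, η⟫_ℝ = 0 ∧ (k.T B G.F m W - σ) η = v) ∧
      ∀ χ ≠ 0, ∀ n ∈ m.gS k.x0, (∀ u : ℝ, n ≠ u • ξ k.x0) → ∃ (a b : ℕ) (w : ℂ), χ ⬝ᵥ pr
        (frk _ _ a b (k.pi B G.F m k.x0 * csE m.J w * opL n * k.pi B G.F m k.x0) ψ) ≠ 0 := by
  rcases eq_or_eq_neg_of_abs_eq hf with e | e
  · exact row_pos hB H hk hG C R e hσ c1 c2 n1 h0 u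
  · obtain ⟨pr, p1, p2⟩ := row_pos hB H hk hG C (redOn_neg R)
      (by rw [Abel74.fm_neg, flux_neg, e, neg_neg]) hσ c2 (by rwa [neg_neg]) n1 h0 u
    exact ⟨pr, p1, fun χ hχ n hn hx => p2 χ hχ n hn fun t => by
      rw [smul_neg, ← neg_smul]; exact hx _⟩

end Crest.Agent.X212.Top11.Rw
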