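import Crest.Agent.X212.Top11.CutA
import Crest.Agent.X212.Gla92.Lf2

/-! # Row 212, GL-CUTU (helper11), part 2: the row of a cut extends to the Banach models -/

set_option autoImplicit false
set_option linter.unusedSectionVars false
set_option maxSynthPendingDepth 3
noncomputable section
open scoped Manifold ContDiff Topology InnerProductSpace
open Set Function Filter

namespace Crest.Agent.X212.Top11.Cu
open An Prm93 Mod61 Mon62 Mon62.Dm Gl67 Sob92 Csm97 Gla92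
open Std94 (Kl)

variable {E : Type} [NormedAddCommGroup E] [NormedSpace ℝ E] [FiniteDimensional ℝ E]
  [MeasurableSpace E] [BorelSpace E]
  {HM : Type} [TopologicalSpace HM] {I : ModelWithCorners ℝ E HM} [I.Boundaryless]
  {M : Type} [TopologicalSpace M] [ChartedSpace HM M] [IsManifold I ∞ M]
  [MeasurableSpace M] [T2Space M] [BorelSpace M] [SecondCountableTopology M]
  {lam : Type} [Fintype lam]

/-- the row of a cut for a family of configurations -/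
theorem Hy.row {ι : Type} [Fintype ι] {J : Type} {X Y : J → Type} [∀ i, NormedAddCommGroup (X i)]
    [∀ i, NormedSpace ℝ (X i)] {D : Dm I M ι X Y} {k : Cut M lam} {μ : MF M ι lam J} {r j : ℕ}
    {ε : Prop} {κ : CF D μ r} {B : J → Base M ι lam} (H : Hy k κ B ε j) {W : Type} {S : Finset W}
    {γ : W → (Σ i, Y i) → ℝ} (tc : W → Tc M lam r) (hx : ∀ w ∈ S, (∀ q, γ w q = 0) ∨
      (scK D).mem (γ w) ∧ (scK D).mem (N := En (Fin μ.N)) fun q =>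
        (κ.c q.1 q.2).xi (κ.F q.1 q.2) (tc w).ξ k.x0)
    {ψ : (Σ i, Y i) → L2c (Fin μ.N)} (hψ : (scK D).mem ψ) {σ : ∀ q : Σ i, Y i, Pc r (B q.1) k}
    (hσ : ∀ q, σ q (κ.c q.1 q.2) =
      ∑ w ∈ S, γ w q • (κ.c q.1 q.2).tc (B q.1) (κ.F q.1 q.2) k (tc w)) :
    D.Sc (N := L2c (Fin μ.N)) fun i y =>
      crow k (B i) (κ.F i y) (σ ⟨i, y⟩) (κ.c i y) (ψ ⟨i, y⟩) := by
  refine Sc.congr (kl_row μ.Jc (sc_proj μ.Jc fun i => (μ.m i).pp (B i) k.x0) H.sym (γ := γ)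
    (fun w => (tc w).m) (fun w => (tc w).n) (fun w hw => (hx w hw).elim (fun e => kl_congr
      ((scK D).const 0) fun q => by rw [e, zero_smul]) fun e => Kl.smul e.1 (H.tc e.2 (tc w).w))
    hψ) fun i y => ?_
  rw [crow, hσ ⟨i, y⟩]
  rfl

section hy
variable {ι h : Type} [Fintype ι] [Fintype h] {T U Up R : Type} [NormedAddCommGroup T]
  [NormedSpace ℝ T] [NormedAddCommGroup U] [NormedSpace ℝ U] [NormedAddCommGroup Up]
  [NormedSpace ℝ Up] [NormedAddCommGroup R] [NormedSpace ℝ R] {N r k : ℕ} {Jc : En (Fin N)}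
  {J : Type} {𝔉 : J → Fam I M ι lam T} {s : ∀ i, Sid (𝔉 i) N Jc U Up R} {δ r₀ : ℝ} {ρ : NNReal}
  (H : Un s δ r₀) {Ω : Set M} {ct : Cut M lam} (L : Lo s Ω) (C : CtU s Ω ct) (i₀ : J)
include L C i₀

theorem vel (a : ι) : (pK (H.dm h r k ρ)).mem fun q =>
    ct.vel ((𝔉 q.1.1.1).G q.1.2.2.1.1).F q.2.2 q.2.1 a :=
  have a1 : ∀ b c, (eK (H.dm h r k ρ) ct.supp).mem fun q =>
      (𝔉 q.1.1.1).Si q.1.2.2.1.1 q.2 b c := fun b c => ⟨_, H.usW (H.Si b c), fun _ _ => rfl⟩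
  have a2 : ∀ a c, (eK (H.dm h r k ρ) ct.supp).mem fun q =>
      ((𝔉 q.1.1.1).G q.1.2.2.1.1).F.P a c q.2 := fun a c =>
    ⟨_, US.fixed (H.ubW (H.ub_P a c)), fun q _ =>
      congrFun (congrFun (congrFun ((H.fam _).G _ q.1.2.2.2).P a) c) q.2⟩
  pk_vel (dat (C.ok i₀ 0 (H.ok i₀).q0)) (𝔉 i₀).F0 (F := fun q => ((𝔉 q.1.1).G q.2.2.1.1).F) a1 a2
    (fun q x hx b => (L.e i₀ q.1.1 x (C.sub.sub hx) b).trans
      (Mon62.mix_inv (H.fam _) q.2.2.2 b x)) a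

theorem hy (hk : 7 ≤ k) {c : Cm N r h R} (hW : WA k H c ρ) :
    Hy ct (H.kf c k ρ) (fun z => (𝔉 z.1).B) True (k + 1) where
  h4 := by omega
  F := H.ff
  ρ a := H.ubW (H.ρ a)
  jj := H.ubW H.j
  W := hW
  dat := dat (C.ok i₀ 0 (H.ok i₀).q0)
  hB z := (H.fam z.1).B
  hm z := (H.ok z.1).ok
  hk _ y := C.ok _ _ y.2.2
  sd a b := H.ubW (H.ub_sd a b)
  pp := H.ubW_pp
  w t ht := let a := C.sub.w t ht; ⟨L.cbU H a.1, L.cbU H a.2.1, L.cbU H a.2.2⟩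
  e t ht := let a := C.sub.e t ht; ⟨L.cvU H a.1, L.cbU H a.2.1, L.cbU H a.2.2⟩
  lb := let ⟨c, hc, lb⟩ := C.lb; ⟨c, hc, fun z y => lb z.1 _ y.2.2⟩
  vel := vel H L C i₀

end hy

/-- **GL-CUTU** -/
theorem cutStmt2 : CutStmt2 I M lam := by
  intro ι h T U Up R J W _ _ _ _ _ _ _ _ _ _ N r k Jc 𝔉 s δ r₀ ρ H c Ω ct S tc γ σ j hk hW L C hγ hξ hσ
  rcases isEmpty_or_nonempty J with e | ⟨⟨i₀⟩⟩
  · exact ⟨_, UC.zero, fun z => isEmptyElim z.1⟩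
  have Y := hy H L C i₀ hk hW
  have ψ : (scK (H.dm h r k ρ)).mem fun q => c.ψ0 j + q.2.2.1.2.2.2 j :=
    (Sc.const _).add (H.sc_q (ContinuousLinearMap.proj j ∘L ContinuousLinearMap.snd ℝ _ _ ∘L
      ContinuousLinearMap.snd ℝ _ _ ∘L ContinuousLinearMap.snd ℝ _ _))
  have g : ∀ w ∈ S, (scK (H.dm h r k ρ)).mem fun q => γ w q.1.1 q.2.2.1.1 := fun w hw =>
    ⟨_, H.uc_t (f := fun z => γ w z.1) (fun z => (hγ w hw).sm z.1) fun n =>
      bn_reix Prod.fst n ((hγ w hw).bn n), fun _ _ => rfl⟩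
  exact Y.row (γ := fun w q => γ w q.1.1 q.2.2.1.1) tc (fun w hw => (hξ w hw).imp
    (fun e q => e _ _ q.2.2.2) fun e => ⟨g w hw, e⟩) ψ (σ := fun q => σ q.1.1 q.2.2.1.1)
    fun q => hσ _ _ q.2.2.2 _

end Crest.Agent.X212.Top11.Cu
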