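import Crest.Agent.X212.Cut19.Stm
import Crest.Agent.X212.Pen22.Gl
import Crest.Agent.X212.Rob53.Hz

/-!
# Row 212, layer GEO (helper11): CUT-EXT and CUT-H3
-/

set_option autoImplicit false
set_option linter.unusedSectionVars false

open Set Filter Topology Function
open scoped ContDiff Manifold
open Crest.Agent.R208.F (Ext)
open Crest.Agent.X212.Bor5.T Crest.Agent.X212.Geo28 Crest.Agent.X212.Dr59 Crest.Agent.X212.Pen22
open Crest.Agent.X212.Cyl58 (TIso)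
open Crest.Agent.X212.Cut19 (H3)

noncomputable section

namespace Crest.Agent.X212.Top11.Ex

section gen

variable {E : Type} [NormedAddCommGroup E] [NormedSpace ℝ E] [FiniteDimensional ℝ E]
  {H : Type} [TopologicalSpace H] {I : ModelWithCorners ℝ E H} [I.Boundaryless]
  {M : Type} [TopologicalSpace M] [ChartedSpace H M] [IsManifold I ∞ M] [T2Space M] [SigmaCompactSpace M]
  {F : Type} [NormedAddCommGroup F] [NormedSpace ℝ F] [FiniteDimensional ℝ F]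
  {G : Type} [TopologicalSpace G] {K : ModelWithCorners ℝ F G} [K.Boundaryless]
  {Y : Type} [TopologicalSpace Y] [ChartedSpace G Y] [IsManifold K ∞ Y]
  {U V : Set M} {n : ℕ} {c : M → Ext E}

/-- an exact part of a form is cut off -/
theorem kill (hU : IsOpen U) (hV : IsOpen V) (hu : U ∪ V = univ) (h : Sm I univ c) (hd : Dg (n + 1) univ c)
    (hx : Ex I V c) : ∃ c', Sm I univ c' ∧ Dg (n + 1) univ c' ∧ dM I c' = dM I c ∧ (∀ x ∉ U, c' x = 0) ∧
      ∀ x ∉ V, c' x = c x := by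
  obtain ⟨χ, hχ⟩ := exists_cut (I := I) hU hV
  obtain ⟨q, q1, q2, q3⟩ := hx.deg (hd.mono (subset_univ _))
  have m := fun x => hu.ge (mem_univ x)
  have z : Cz I univ V (1 - χ) := ⟨fun x _ => contMDiffAt_const.sub (hχ.sm x (m x)),
    fun x _ hw => (hχ.o x ((m x).resolve_right hw) hw).mono fun y hy => by simp [hy]⟩
  have b := cl_dM isOpen_univ (z.sm_smul q1) (z.dg_smul q2)
  refine ⟨c - dM I ((1 - χ) • q), h.sub b.sm, hd.sub b.dg, funext fun x => ?_, fun x hx => ?_, fun x hx => ?_⟩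
  · rw [dM_sub ne0 (h x trivial) (b.sm x trivial), b.cl x trivial, sub_zero]
  · have k := (m x).resolve_left hx
    rw [Pi.sub_apply, ← q3 x k, sub_eq_zero]
    exact dM_congr ((hχ.z x k hx).mono fun y hy => by simp [hy])
  · rw [Pi.sub_apply, dM_congr (z.smul_zero trivial hx q), dM_zero]
    exact sub_zero _

theorem eqv_ex (h : Eqv I U V) (hc : Cl I n U c) (hx : Ex I V c) : Ex I U c :=
  (cls_eq_zero (h := hc)).1 ((h.bij n).1 (((cls_eq_zero (h := hc.mono h.sub)).2 hx).trans (map_zero _).symm))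

/-- a chart of a cylinder over the times `J` -/
structure Tc (τ : M → ℝ) (J : Set ℝ) (φ : PartialDiffeomorph (K.prod 𝓘(ℝ, ℝ)) I (Y × ℝ) M ∞) : Prop where
  cont : Continuous τ
  src : φ.source = Prod.snd ⁻¹' J
  tgt : φ.target = τ ⁻¹' J
  tm : ∀ z : Y × ℝ, z.2 ∈ J → τ (φ z) = z.2

variable {τ : M → ℝ} {J C S : Set ℝ} {φ : PartialDiffeomorph (K.prod 𝓘(ℝ, ℝ)) I (Y × ℝ) M ∞} (h : Tc τ J φ)
include h

theorem Tc.img (h0 : C ⊆ J) : φ '' (Prod.snd ⁻¹' C) = τ ⁻¹' C := by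
  refine Subset.antisymm (image_subset_iff.2 fun _ hz => mem_of_eq_of_mem (s := C) (h.tm _ (h0 hz)) hz) fun x hx => ?_
  have k := h.tgt.ge (h0 hx)
  exact ⟨φ.symm x, mem_of_eq_of_mem (s := C) ((h.tm _ (h.src.le (φ.map_target k))).symm.trans
    (congrArg τ (φ.right_inv k))) hx, φ.right_inv k⟩

theorem Tc.hz (k : HZ K n (univ : Set Y)) (hC : IsOpen C) (cC : C.OrdConnected) (h0 : C ⊆ J) :
    HZ I n (τ ⁻¹' C) := by
  rw [← h.img h0, hz_pd φ (hC.preimage continuous_snd) fun _ hz => h.src.ge (h0 hz), ← univ_prod]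
  exact k.prod_convex isOpen_univ hC cC.convex

theorem Tc.eqv (hJ : IsOpen J) (cJ : J.OrdConnected) (hC : IsOpen C) (cC : C.OrdConnected) {t : ℝ} (t1 : t ∈ C)
    (t2 : t ∈ J) (e : C ∪ J = S) : Eqv I (τ ⁻¹' S) (τ ⁻¹' C) := by
  have k := Eqv.pd φ (eqv_fib (I := K) (hJ.preimage continuous_snd) ((hC.inter hJ).preimage continuous_snd)
    (preimage_mono inter_subset_right) (c := t) (fun _ _ => ⟨t1, t2⟩) (fun _ => cJ.convex.starConvex t2)
    fun _ => (cC.inter cJ).convex.starConvex ⟨t1, t2⟩) (hJ.preimage continuous_snd)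
    ((hC.inter hJ).preimage continuous_snd) h.src.ge
  rw [h.img Subset.rfl, h.img inter_subset_right] at k
  exact e ▸ Eqv.union (hC.preimage h.cont) (hJ.preimage h.cont) k

omit h in
theorem h3c (h : Tc τ univ φ) (h2 : HZ K 2 (univ : Set Y)) {s t s' t' : ℝ} (hs : s' < s) (ht : t < t')
    (hc : Cs I 3 (τ ⁻¹' Icc s t) c) :
    ∃ γ, Sm I univ γ ∧ Dg 2 univ γ ∧ dM I γ = c ∧ ∀ p ∈ τ ⁻¹' (Ioo s' t')ᶜ, γ p = 0 := by
  rcases lt_or_ge t s with k | k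
  · exact ⟨0, Sm.zero, Dg.zero, dM_zero.trans (funext fun x => (hc.eq_zero fun e => (e.1.trans e.2).not_gt k).symm),
      fun _ _ => rfl⟩
  have z1 : ∀ x ∈ τ ⁻¹' Iio s, c x = 0 := fun x hx => hc.eq_zero fun e => e.1.not_gt hx
  have z2 : ∀ x ∈ τ ⁻¹' Ioi t, c x = 0 := fun x hx => hc.eq_zero fun e => e.2.not_gt hx
  obtain ⟨γ, g1, g2, g3⟩ := (eqv_ex (h.eqv isOpen_univ ordConnected_univ isOpen_Iio ordConnected_Iio hs trivial
    (union_univ _)) hc.cl (ex_of_zero z1)).deg hc.cl.dg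
  have o1 := (isOpen_Iio (a := s)).preimage h.cont
  have o2 := (isOpen_Ioi (a := t)).preimage h.cont
  obtain ⟨γ', p1, p2, p3, p4, -⟩ := kill ((isOpen_Ioo (a := s') (b := t')).preimage h.cont) (o1.union o2)
    (eq_univ_of_forall fun x => (lt_or_ge (τ x) s).elim (fun e => .inr (.inl e)) fun e =>
      (lt_or_ge t (τ x)).elim (fun e => .inr (.inr e)) fun e' => .inl ⟨hs.trans_le e, e'.trans_lt ht⟩) g1 g2
    (ex_disj o1 o2 (disjoint_left.2 fun x a b => (lt_of_lt_of_le (lt_trans b a) k).false)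
      (h.hz h2 isOpen_Iio ordConnected_Iio (subset_univ _) γ
        ⟨g1.mono (subset_univ _), g2.mono (subset_univ _), fun x hx => (g3 x trivial).trans (z1 x hx)⟩)
      (h.hz h2 isOpen_Ioi ordConnected_Ioi (subset_univ _) γ
        ⟨g1.mono (subset_univ _), g2.mono (subset_univ _), fun x hx => (g3 x trivial).trans (z2 x hx)⟩))
  exact ⟨γ', p1, p2, p3.trans (funext fun x => g3 x trivial), p4⟩

omit h in
theorem h3n {α β s t : ℝ} (h : Tc τ (Ioo α β) φ) (lt : α < β) (hs : α < s) (ht : t < β)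
    (ext : ∀ b, Cl K 2 univ b → ∃ u, Cl I 2 (τ ⁻¹' Iio β) u ∧ ∀ p : Y × ℝ, p.2 ∈ Ioo α β →
      pm (K.prod 𝓘(ℝ, ℝ)) I φ u p = pm (K.prod 𝓘(ℝ, ℝ)) K Prod.fst b p) (hc : Cs I 3 (τ ⁻¹' Icc s t) c) :
    Ex I univ c := by
  rcases lt_or_ge t s with k | k
  · exact ex_of_zero fun x _ => hc.eq_zero fun e => (e.1.trans e.2).not_gt k
  obtain ⟨a, a1, a2⟩ := exists_between hs
  obtain ⟨b, b1, b2⟩ := exists_between ht
  have o1 := (isOpen_Iio (a := β)).preimage h.cont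
  have o2 := (isOpen_Ioi (a := α)).preimage h.cont
  have u : τ ⁻¹' Iio β ∪ τ ⁻¹' Ioi α = univ :=
    eq_univ_of_forall fun x => (lt_or_ge (τ x) β).imp id fun e => lt.trans_le e
  have i : φ '' (univ ×ˢ Ioo α β) = τ ⁻¹' Iio β ∩ τ ⁻¹' Ioi α := by
    rw [univ_prod, h.img Subset.rfl, ← preimage_inter, Iio_inter_Ioi]
  have o : IsOpen ((univ : Set Y) ×ˢ Ioo α β) := isOpen_univ.prod isOpen_Ioo
  have s0 : (univ : Set Y) ×ˢ Ioo α β ⊆ φ.source := fun _ hz => h.src.ge hz.2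
  rw [← u]
  refine (cls_eq_zero (h := hc.on _)).1 (res_inj o1 o2 (fun e => ?_) ((cls_eq_zero (h := hc.on _)).2 ?_)
    ((cls_eq_zero (h := hc.on _)).2 ?_))
  · obtain ⟨w, hw, rfl⟩ := exists_cls e
    have m : Mp (K.prod 𝓘(ℝ, ℝ)) I (univ ×ˢ Ioo α β) (τ ⁻¹' Iio β ∩ τ ⁻¹' Ioi α) φ := i ▸ pd_mp φ s0
    have a0 : a ∈ Ioo α β := ⟨a1, (a2.trans_le k).trans ht⟩
    obtain ⟨y, hy⟩ := (st_fst_bij (I := K) (k := 2) isOpen_univ isOpen_Ioo a0
      ((convex_Ioo α β).starConvex a0)).2 (hw.pm m).cls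
    obtain ⟨v, hv, rfl⟩ := exists_cls y
    obtain ⟨q, q1, q2⟩ := ext v hv
    refine ⟨q1.cls, 0, ?_⟩
    rw [map_zero, sub_zero, res_cls, cls_eq, ← i]
    refine ex_pd φ o s0 ((cls_eq.1 hy).symm.congr fun p hp => ?_)
    rw [pm_sub, Pi.sub_apply, Pi.sub_apply, q2 p hp.2]
    rfl
  · exact eqv_ex (h.eqv isOpen_Ioo ordConnected_Ioo isOpen_Iio ordConnected_Iio a2 ⟨a1, (a2.trans_le k).trans ht⟩
      (by rw [Iio_union_Ioo (min_lt_of_left_lt hs), max_eq_right (k.trans ht.le)])) (hc.on _)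
      (ex_of_zero fun x hx => hc.eq_zero fun e => e.1.not_gt hx)
  · exact eqv_ex (h.eqv isOpen_Ioo ordConnected_Ioo isOpen_Ioi ordConnected_Ioi b1 ⟨(hs.trans_le k).trans b1, b2⟩
      (by rw [union_comm, Ioo_union_Ioi (lt_max_of_lt_right ht), min_eq_left (hs.le.trans k)])) (hc.on _)
      (ex_of_zero fun x hx => hc.eq_zero fun e => e.2.not_gt hx)

end gen

instance (W : W4) : SigmaCompactSpace W.X.P.M := Int54.sigmaCompact (I := (m4 W).I) (m4 W).M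

theorem tc_of {A : O3} {W : W4} {J : Set ℝ} (k : TIso A.cyl W.X J) :
    Tc (I := (m4 W).I) (K := A.Y.I) (Y := A.Y.M) W.X.τ J k.φ := ⟨W.X.cont, k.src, k.tgt, k.tm⟩

theorem tc_nc {A : O3} {X : M4} {J : Set ℝ} (k : Nc A X J) : Tc k.tm J k.k :=
  ⟨k.cont, k.src.trans univ_prod, k.tgt, fun z hz => tm_k k z.1 hz⟩

/-- CUT-H3 -/
theorem h3 : Cut19.H3Stmt where
  cyl A _ k _ _ _ _ hs ht _ hc := h3c (tc_of k) A.h2 hs ht hc
  nv _ _ _ P _ _ hs ht _ hc :=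
    let ⟨γ, g1, g2, g3⟩ := (h3n (tc_of P.k) P.lt hs ht P.ext hc).deg hc.cl.dg
    ⟨γ, g1, g2, funext fun x => g3 x trivial, fun _ h => h.elim⟩

theorem ext0 {A : O3} {X₁ X₂ X : M4} {k₁ : Nc A X₁ (Ioi 0)} {k₂ : Nc A X₂ (Iio 0)} (g : Gl3 k₁ k₂ X)
    {w : A.Y.M → Ext A.Y.E} (hw : Cl A.Y.I 2 univ w) (n : ¬Ex A.Y.I univ w) (hB : HZ X₂.I 2 (univ : Set X₂.M))
    {Z : Set X.M} {Z₁ : Set X₁.M} (h3 : H3 X g.n.k.target Z) (m : ∀ p ∈ Z₁, k₁.tm p ≤ 0 ∧ g.l p ∈ Z) :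
    Ext2 k₁ Z₁ := by
  have sy : ∀ p, 0 < k₁.tm p → ContMDiffAt X₁.I A.Y.I ∞ (fun p => (k₁.k.symm p).1) p := fun p hp =>
    ((pd_mp k₁.k.symm Subset.rfl).sm p (k₁.tgt.ge hp)).fst
  set Ω := pm X₁.I A.Y.I (fun p => (k₁.k.symm p).1) w
  have hΩ : Cl X₁.I 2 (k₁.tm ⁻¹' Ioi 0) Ω := hw.pm ⟨sy, mapsTo_univ _ _⟩
  obtain ⟨χ, hχ⟩ := exists_cut (I := X₁.I) ((isOpen_Ioi (a := 1)).preimage k₁.cont)
    ((isOpen_Iio (a := 2)).preimage k₁.cont)
  have c0 : ∀ p, k₁.tm p ≤ 1 → χ =ᶠ[𝓝 p] 0 := fun p hp => hχ.z p (hp.trans_lt one_lt_two) hp.not_gt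
  have c1 : ∀ p, 2 ≤ k₁.tm p → χ =ᶠ[𝓝 p] 1 := fun p hp => hχ.o p (one_lt_two.trans_le hp) hp.not_gt
  have z : Cz X₁.I univ (k₁.tm ⁻¹' Ioi 0) χ :=
    ⟨fun p _ => hχ.sm p ((lt_or_ge 1 (k₁.tm p)).imp id fun e => e.trans_lt one_lt_two),
      fun p _ hp => c0 p ((not_lt.1 hp).trans zero_le_one)⟩
  have s12 : Icc (1 : ℝ) 2 ⊆ Ioi 0 := fun _ h => one_pos.trans_le h.1
  have cK : IsCompact (k₁.tm ⁻¹' Icc 1 2) := by
    rw [← (tc_nc k₁).img s12, ← univ_prod]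
    exact (isCompact_univ.prod isCompact_Icc).image_of_continuousOn
      (k₁.k.contMDiffOn.continuousOn.mono fun _ hz => k₁.src.ge ⟨trivial, s12 hz.2⟩)
  have η₁ : Cs X₁.I 3 (k₁.tm ⁻¹' Icc 1 2) (df X₁.I χ * Ω) := by
    have := cs_indicator isOpen_univ (z.cf.cl_mul hΩ) cK (subset_univ _) fun p _ hp => by
      rw [Pi.mul_apply, (not_and_or.1 hp).elim (fun e => df_eq_zero (c0 p (not_le.1 e).le))
        fun e => df_eq_zero (c1 p (not_le.1 e).le), zero_mul]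
    rwa [indicator_univ] at this
  have sK : k₁.tm ⁻¹' Icc 1 2 ⊆ g.l.source := fun p hp => (mem_l g).2 (hp.2.trans_lt (by norm_num))
  have η : Cs X.I 3 (g.n.tm ⁻¹' Icc 1 2) (psh g.l (df X₁.I χ * Ω)) := (η₁.psh g.l sK).mono
    (image_subset_iff.2 fun p hp => mem_of_eq_of_mem (s := Icc (1 : ℝ) 2) (tm_l g (sK hp) (.inl (s12 hp))) hp)
  obtain ⟨γ, g1, g2, g3, g4⟩ := h3 _ (η.mono fun p hp => g.n.tgt.ge ⟨s12 hp, hp.2.trans_lt (by norm_num)⟩)
  have sW : k₂.tm ⁻¹' Ioi (-2) ⊆ g.r.source := fun p hp => (mem_r g).2 (lt_trans (by norm_num) hp)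
  have i : g.r '' (k₂.tm ⁻¹' Ioi (-2)) = g.n.tm ⁻¹' Ioi 2 := by
    refine Subset.antisymm (image_subset_iff.2 fun p hp => show 2 < g.n.tm (g.r p) from lt_of_not_ge fun e => ?_)
      fun x hx => ?_
    · linarith [tm_r g (sW hp) (.inr (e.trans_lt (by norm_num))), show -2 < k₂.tm p from hp]
    · have k := (mem_rt g).2 (two_pos.trans hx)
      refine ⟨g.r.symm x, show -2 < k₂.tm (g.r.symm x) from lt_of_not_ge fun e => ?_, g.r.right_inv k⟩
      have : g.n.tm x = k₂.tm (g.r.symm x) + 4 :=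
        (congrArg g.n.tm (g.r.right_inv k)).symm.trans (tm_r g (g.r.map_target k) (.inl (e.trans_lt (by norm_num))))
      linarith [show 2 < g.n.tm x from hx]
  have hz : HZ X.I 2 (g.n.tm ⁻¹' Ioi 2) := by
    rw [← i, hz_pd g.r (isOpen_Ioi.preimage k₂.cont) sW, ← ((tc_nc k₂).eqv isOpen_Iio ordConnected_Iio isOpen_Ioi
      ordConnected_Ioi (t := -1) (by norm_num) (by norm_num) (union_comm _ _ ▸ Iio_union_Ioi_of_lt (by norm_num))).hz]
    exact hB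
  obtain ⟨γ', p1, p2, p3, p4, p5⟩ := kill ((isOpen_Iio (a := 3)).preimage g.n.cont)
    ((isOpen_Ioi (a := 2)).preimage g.n.cont) (eq_univ_of_forall fun x => (lt_or_ge (g.n.tm x) 3).imp id fun e =>
      lt_of_lt_of_le (by norm_num) e) g1 g2 (hz γ ⟨g1.mono (subset_univ _), g2.mono (subset_univ _), fun x hx => by
        rw [g3]; exact η.eq_zero fun e => e.2.not_gt hx⟩)
  have ml : Mp X₁.I X.I g.l.source univ g.l := (pd_mp g.l Subset.rfl).mono Subset.rfl (subset_univ _)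
  have a1 := (z.sm_smul hΩ.sm).mono (subset_univ g.l.source)
  have a : Cl X₁.I 2 g.l.source (χ • Ω - pm X₁.I X.I g.l γ') :=
    ⟨a1.sub (p1.pm ml), ((z.dg_smul hΩ.dg).mono (subset_univ _)).sub (p2.pm ml.maps), fun p hp => by
      rw [dM_sub ne0 (a1 p hp) (p1.pm ml p hp), dM_pm ne0 (ml.sm p hp) (p1 _ trivial), p3, g3, pm_psh g.l hp,
        z.d_smul (w := 0) hΩ.sm (fun x _ hx => hΩ.cl x hx) trivial, cut_apply, Pi.zero_apply, smul_zero, zero_add,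
        Pi.mul_apply, sub_self]⟩
  have e : EqOn (χ • Ω - pm X₁.I X.I g.l γ') Ω (g.l.source ∩ k₁.tm ⁻¹' Ioi 3) := fun p hp => by
    have k : 3 < k₁.tm p := hp.2
    rw [Pi.sub_apply, Pi.smul_apply', (c1 p (by linarith)).self_of_nhds, pm_apply,
      p4 _ fun e => by linarith [tm_l g hp.1 (.inl (by linarith)), show g.n.tm (g.l p) < 3 from e], map_zero,
      sub_zero, Pi.one_apply, one_smul]
  refine ⟨glue g.l.source (χ • Ω - pm X₁.I X.I g.l γ') Ω, (cl_glue g.l.open_source (isOpen_Ioi.preimage k₁.cont) a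
    (hΩ.mono fun p hp => lt_trans three_pos hp) e).mono fun p _ => (lt_or_ge (k₁.tm p) 4).imp (mem_l g).2 fun e =>
      lt_of_lt_of_le (by norm_num) e, fun p hp => ?_, fun hx => n ?_⟩
  · obtain ⟨m1, m2⟩ := m p hp
    rw [glue_left ((mem_l g).2 (m1.trans_lt four_pos)), Pi.sub_apply, Pi.smul_apply',
      (c0 p (m1.trans zero_le_one)).self_of_nhds, pm_apply,
      p5 _ fun e => by linarith [l_le g le_rfl four_pos m1, show 2 < g.n.tm (g.l p) from e], g4 _ m2, map_zero,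
      sub_zero, Pi.zero_apply, zero_smul]
  · have f : (5 : ℝ) ∈ Ioi 0 := by norm_num
    have j := mp_inl (I := A.Y.I) (J := 𝓘(ℝ, ℝ)) (univ : Set A.Y.M) f
    refine (hx.pm j).congr fun y _ => ?_
    have s : (y, (5 : ℝ)) ∈ k₁.k.source := k₁.src.ge ⟨trivial, f⟩
    have d := ((pd_mp k₁.k Subset.rfl).sm _ s).mdifferentiableAt ne0
    have d' := (j.sm y trivial).mdifferentiableAt ne0
    have t := tm_k k₁ y f
    rw [pm_comp (f := fun x => (x, (5 : ℝ))) (z := y) d d', pm_congr_right (b := Ω) (glue_right e (show 3 < k₁.tm _ from t.symm ▸ by norm_num)),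
      pm_comp ((sy _ (t.symm ▸ f)).mdifferentiableAt ne0) (d.comp y d'), pm_of_eventually_id]
    exact .of_forall fun x => congrArg Prod.fst (k₁.k.left_inv (k₁.src.ge ⟨trivial, f⟩))

/-- the area form of the sphere -/
theorem area (R : R3) : ∃ w : R.Y.M → Ext R.Y.E, Cl R.Y.I 2 univ w ∧ ¬Ex R.Y.I univ w := by
  obtain ⟨o, ho⟩ := Orx52.exists_ori_sphere (V := EuclideanSpace ℝ (Fin 3)) (n := 2) one_lt_two
  obtain ⟨b, b1, -, b2⟩ := Rob53.exists_top ho (n := 2) (by simp) isOpen_univ univ_nonempty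
  have f := contMDiff_fst.comp R.φ.contMDiff
  have j := R.φ.symm.contMDiff.comp (contMDiff_id.prodMk (contMDiff_const (c := (1 : Circle))))
  refine ⟨_, b1.pm (.of_contMDiff f (mapsTo_univ _ _)), fun hx => b2 ((hx.pm (.of_contMDiff j
    (mapsTo_univ _ _))).congr fun y _ => ?_)⟩
  rw [pm_comp (f.mdifferentiableAt ne0) (j.mdifferentiableAt ne0), pm_of_eventually_id]
  exact .of_forall fun x => congrArg Prod.fst (R.φ.apply_symm_apply _)

/-- CUT-EXT -/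
theorem ext : Cut19.ExtStmt := fun _ R L _ _ g hB h =>
  let ⟨_, h1, h2⟩ := area R
  ext0 g.toGl3 h1 h2 hB h fun p hp =>
    have k := hp.elim (L.i3 p) (L.o3 p)
    have s := fun p (k : L.k3.tm p ≤ 0) => (mem_l g.toGl3).2 (k.trans_lt four_pos)
    ⟨k, hp.imp (fun e => (mt_tm (by simp) g.ki (fun p e => s p (L.i3 p e)) p (s p k) (.inl e)).trans_lt e)
      fun e => e.trans_eq (mt_tm (by simp) g.ko (fun p e => s p (L.o3 p e)) p (s p k) (.inl e)).symm⟩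

end Crest.Agent.X212.Top11.Ex
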