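import Crest.Agent.X212.Top11.Main
import Crest.Agent.X212.Two48.Tm
import Crest.Agent.X212.Ins26.Nv
import Crest.Agent.X212.Rs52.Main
import Crest.Agent.X212.Nm96.Opp
import Crest.Agent.X212.Mv27.Can
import Crest.Agent.X212.Jb7.Ex
import Crest.Agent.X212.Ins30.Cnt
import Crest.Agent.X212.Loc8.HgS
import Crest.Agent.X212.Ord99.Main
import Crest.Agent.X212.Br55.Tm
import Crest.Agent.X212.Tm38.Lb
import Crest.Agent.X212.Nr4.Fil

/-!
# Row 212, TOP (helper11): the closed inputs of layer P, the list of the open ones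
-/

set_option autoImplicit false

namespace Crest.Agent.X212.Top11
open Br55

theorem w2 : WdL (1, 2) (1, -2) := ⟨13, le_rfl, fun _ H Fw => Two48.opp2 H Fw
  ⟨false, .f, .fi, rfl, rfl, rfl, rfl, fun _ ⟨k, e⟩ => ⟨k + 1, by omega⟩, fun _ ⟨k, e⟩ => ⟨k + 1, by omega⟩⟩
  rfl .f (ent _ _ le_rfl)⟩

theorem w1 : ∀ q > 0, WdL (q, 1) (q, -1) ∨ WdL (q, 1) (-q, 1) := fun q hq => by
  lift q to ℕ using hq.le
  exact .inr ⟨13, le_rfl, fun _ H Fw => Nm96.opp1 (q := q) (Γ := Wd38.nm _ _) (f := Wd38.Jn.f) (fi := Wd38.Jn.fi) H Fw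
    (ent _ _ le_rfl) ⟨rfl, rfl, rfl, rfl, .f, fun _ _ => ⟨one_dvd _, one_dvd _⟩⟩ (by omega)⟩

/-- **still open** -/
structure Op : Prop where
  kit : ∀ Lm, LmOK Lm → Ins26.KitStmt Lm
  lens : ∀ Lm, LmOK Lm → Ins26.LensStmt Lm
  rf : ∀ Lm, LmOK Lm → Ins26.Core Lm → Ins26.RfStmt (T0 Lm)
  fact : ∀ Lm, LmOK Lm → Ins26.Core Lm → Ins26.FactStmt (T0 Lm)

theorem Op.pl (H : Op) : PL where
  w1 := w1
  w2 := w2
  tm _ C _ _ L _ S H ab hg _ f :=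
    let ⟨_, _, e⟩ := S.ent
    Br55.tmW S.nat S.nM S.nL S.nF ab hg (Tm38.lbG L (congrArg Prod.snd e.cap)) (Nr4.nr L) (Nr4.nf' L) (Tm38.zhs C)
      (fun _ => Dr59.hz_fil C) H f
  can _ _ _ _ _ _ S := Mv27.canStmt S.nat
  ab _ _ _ _ L _ S := let ⟨_, _, E⟩ := S.ent; Ord99.abS L (congrArg Prod.snd E.cap)
  hg _ _ _ _ L _ _ := Loc8.hgS L
  rs _ _ _ _ _ _ S := Rs52.rs (S.std .rr) S.natL S.lm.deg
  kit := H.kit
  lens := H.lens
  cnt := Ins30.cnt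
  ex _ h := Jb7.ex h.cut
  rf := H.rf
  fact := H.fact
  nv _ h c := Ins26.nv (fun _ _ => id) h.cut c

end Crest.Agent.X212.Top11
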