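import Crest.Agent.X212.Top11.Ex
import Crest.Agent.X212.Nv17.Bas
import Crest.Agent.X212.Mv17.Cl

/-!
# Row 212, layer GEO (helper11): CUT-MID
-/

set_option autoImplicit false
set_option linter.unusedSectionVars false

open Set Filter Topology Function Module
open scoped ContDiff Manifold Real
open Crest.Agent.R208 Crest.Agent.R208.FI
open Crest.Agent.R208.F hiding wd
open Crest.Agent.X212.Line51 hiding tp Uni
open Crest.Agent.X212.Orx52 Crest.Agent.X212.Rod53 Crest.Agent.X212.Dr59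
open Crest.Agent.X212.Bor5.T (Tub Q3 W4 Fo)
open Crest.Agent.X212.Geo28 (m4)
open Crest.Agent.X212.Cut19 (wN isN rW)
open Crest.Agent.X212.Top11.Ex (eqv_ex)

noncomputable section

namespace Crest.Agent.X212.Top11.Mid

section gen

variable {E : Type} [NormedAddCommGroup E] [NormedSpace ℝ E] [FiniteDimensional ℝ E]
  {H : Type} [TopologicalSpace H] {I : ModelWithCorners ℝ E H} [I.Boundaryless]
  {M : Type} [TopologicalSpace M] [ChartedSpace H M] [IsManifold I ∞ M] [T2Space M] [SigmaCompactSpace M]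
  {U W : Set M} {n m : ℕ}

/-- a handle that kills a class of degree one does not create a class of degree two -/
theorem kb_drop (h : Hd I W U n) (hn : n ≤ m + 1) (k : ¬Surjective (res (I := I) (k := 1) h.sub)) :
    Kb I 2 h.sub m := by
  obtain ⟨p, q, e, l⟩ := h.hn
  refine Rk.mono l.kb (by_contra fun a => ?_)
  obtain rfl : q = 0 := by omega
  exact k fun y => (Submodule.Quotient.mk_eq_zero _).1 (rk_zero.1 l.cb _)

end gen

variable {EN HN : Type} [NormedAddCommGroup EN] [NormedSpace ℝ EN] [FiniteDimensional ℝ EN]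
  [TopologicalSpace HN] {IN : ModelWithCorners ℝ EN HN} [IN.Boundaryless]
  {N : Type} [TopologicalSpace N] [ChartedSpace HN N] [IsManifold IN ∞ N] [T2Space N]
  {T : Tb IN N} {θ : N → Circle} {δ a b : Z2} {v : ℝ → Z2} {S : Set ℝ} {α β γ c : ℝ}

/-- the angle class does not extend over a rod on which it has degree one -/
theorem not_surj (hθ : Ang T θ δ) (hu : Uni a b) (ha : dot δ a = 1) {t₀ t₁ : ℝ} (h₁ : t₁ ∈ Jr v a)
    {W : Set (X T v)} (hs : ∀ x ∈ W, CSm (𝓡 4) (thx T v θ δ) x) (h₀ : ∀ x, T.time v x = t₀ → x ∈ W)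
    (hc : Convex ℝ S) (m₀ : t₀ ∈ S) (m₁ : t₁ ∈ S) (s : W ⊆ T.time v ⁻¹' S) :
    ¬Surjective (res (I := 𝓡 4) (k := 1) s) := fun k => by
  obtain ⟨x, hx⟩ := k (cl_ang hs).cls
  let G : Circle × ℝ → (Circle × ℂ) × ℝ := fun p => ((1, (p.2 : ℂ) * p.1), t₁ + p.2 * (t₀ - t₁))
  have m : ∀ p, G p ∈ Ur v a := fun p => (em (p.2 = 0)).elim (fun e => .inr (by simpa [G, e] using h₁))
    fun e => .inl (mul_ne_zero (Complex.ofReal_ne_zero.2 e) p.1.coe_ne_zero)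
  have sm : ∀ p, ContMDiffAt ((𝓡 1).prod 𝓘(ℝ, ℝ)) (𝓡 4) ∞ (T.rod v hu ∘ G) p := fun p =>
    (ld_pd (T.rod v hu) (m p)).contMDiffAt.comp p ((contMDiffAt_const.prodMk (Cab39.cmul (Cab39.creal contMDiffAt_snd)
      (Cab39.ccoe contMDiffAt_fst))).prodMk (contMDiffAt_const.add (contMDiffAt_snd.mul contMDiffAt_const)))
  have h : Ht (𝓡 1) (𝓡 4) univ (T.time v ⁻¹' S) (T.rod v hu ∘ G) := ⟨fun _ _ _ _ => sm _, fun u _ t ht =>
    mem_of_eq_of_mem (s := S) (T.time_rod hu (m _)) (hc.add_smul_sub_mem m₁ m₀ ht)⟩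
  have g : Mp (𝓡 1) (𝓡 4) univ W fun u => T.rod v hu (G (u, 1)) :=
    ⟨(h.mp (right_mem_Icc.2 zero_le_one)).sm, fun u _ => h₀ _ (by rw [T.time_rod hu (m _)]; simp [G])⟩
  have c : T.rod v hu ((1, 0), t₁) ∈ T.time v ⁻¹' S := mem_of_eq_of_mem (s := S) (T.time_rod hu (.inr h₁)) m₁
  have e := h.st_eq isOpen_univ (Mp.const univ c) (g.mono Subset.rfl s) (fun _ _ => by simp [G]) (fun _ _ => rfl) x
  rw [st_const c, ← g.st_res s, hx, g.st_cls] at e
  refine Nv17.not_ex_oC ((cls_eq_zero.1 e.symm).congr fun u _ => ?_)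
  rw [pm_ang (φ := fun u => T.rod v hu (G (u, 1))) (hs _ (g.maps trivial)) ((g.sm u trivial).mdifferentiableAt ne0), oC]
  refine congrArg (ang (𝓡 1) · u) (funext fun y => ?_)
  rw [comp_apply, hθ.thx_eq (T.rod_mem_tor hu (m _)), chi_rod hu (by simp [G]), ha]
  simp [G, Cab39.dir_coe]

theorem csm_slab (hθ : Ang T θ δ) (ha : dot δ a = 0) (hS : IsOpen S) (h : S ⊆ Jr v a) :
    ∀ x ∈ T.time v ⁻¹' S, CSm (𝓡 4) (thx T v θ δ) x := fun _ hx => hθ.csm fun _ => by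
  filter_upwards [hS.mem_nhds hx] with t ht using (dot_pm (Jr.pm (h ht))).2 ha

/-- slabs over rods of one slope -/
theorem hz_slab {EY HY : Type} [NormedAddCommGroup EY] [NormedSpace ℝ EY] [FiniteDimensional ℝ EY]
    [TopologicalSpace HY] {IY : ModelWithCorners ℝ EY HY} [IY.Boundaryless] {Y : Type} [TopologicalSpace Y]
    [ChartedSpace HY Y] [IsManifold IY ∞ Y] (G : Fl T a b IY Y) (hu : Uni a b) {n : ℕ} (hz : HZ IY n (univ : Set Y))
    (hS : IsOpen S) (hc : Convex ℝ S) (e : S ⊆ Jr v a) : HZ (𝓡 4) n (T.time v ⁻¹' S) := by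
  rw [← G.image_cyf hu e]
  exact (hz_pd (cp (v := v) G hu) (isOpen_univ.prod hS) fun q hq => Or.inr (e hq.2)).2
    (hz.prod_convex isOpen_univ hS hc)

/-- one vertex, seen from the right -/
theorem hd_right [SigmaCompactSpace (X T v)] (hu : Uni a b) (hJ : Ioo α γ ⊆ Jv v a b c) (h0 : α < c) (h1 : c ≤ β)
    (h2 : β < γ) : Hd (𝓡 4) (T.time v ⁻¹' Ioo β γ) (T.time v ⁻¹' Ioo α γ) 1 := by
  have o : IsOpen (T.time v ⁻¹' Ioo α γ ∩ (off T v ∪ T.time v ⁻¹' Ioi c)) :=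
    (isOpen_Ioo.preimage T.continuous_time).inter (isOpen_off.union (isOpen_Ioi.preimage T.continuous_time))
  obtain ⟨t, ht⟩ := exists_between h2
  have t1 : c < t := h1.trans_lt ht.1
  have t2 : t ∈ Ioo α γ := ⟨h0.trans t1, ht.2⟩
  have s : Ioo β γ ⊆ Ioo α γ := Ioo_subset_Ioo_left (h0.le.trans h1)
  have k : Eqv (𝓡 4) (T.time v ⁻¹' Ioo α γ ∩ (off T v ∪ T.time v ⁻¹' Ioi c)) (T.time v ⁻¹' Ioo β γ) := by
    rw [rg_time, rg_off, rg_time (Ioo β γ)] at *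
    refine eqv_rg hu.symm o (rg_time (T := T) (v := v) _ ▸ isOpen_Ioo.preimage T.continuous_time)
      (fun x hx => Jv.right (hJ hx.1) (hx.2.resolve_left (lt_irrefl _))) (c := t) (fun r => ⟨fun x hx =>
        ⟨s hx, .inr (h1.trans_lt hx.1)⟩, ((convex_Ioo _ _).inter ?_) ⟨t2, .inr t1⟩, convex_Ioo _ _ ht, fun _ _ => ht⟩)
      ⟨s, convex_Ioo _ _ t2, convex_Ioo _ _ ht, fun _ _ => ht⟩
    by_cases e : 0 < r
    · simpa [e] using convex_univ
    · simpa [e] using! convex_Ioi c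
  have cv : Convex ℝ (Ioo α γ ×ˢ (univ : Set ℝ)) := (convex_Ioo _ _).prod convex_univ
  have c0 : ((c, 0) : ℝ × ℝ) ∈ Ioo α γ ×ˢ (univ : Set ℝ) := ⟨⟨h0, t1.trans ht.2⟩, trivial⟩
  have e : T.time v ⁻¹' Ioo α γ ∩ (off T v ∪ T.time v ⁻¹' Ioi c) ∩ T.ov v (Ioo α γ ×ˢ univ) =
      T.ov v (Ioo α γ ×ˢ univ ∩ {q | 0 < q.2 ∨ c < q.1}) :=
    Subset.antisymm (fun p l => ⟨l.2.1, l.2.2, l.1.2.imp_left (off_iff l.2.1).1⟩) fun p l =>
      ⟨⟨l.2.1.1, l.2.2.imp_left (off_iff l.1).2⟩, l.1, l.2.1⟩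
  convert (Hd.of_eqv k o (isOpen_Ioo.preimage T.continuous_time)).two
    (acy_ov hu (isOpen_Ioo.prod isOpen_univ) c0 (cv c0) fun x hx => hJ hx.1)
    (e ▸ circ_ov (c := t) hu.symm ((isOpen_Ioo.prod isOpen_univ).inter ((isOpen_lt continuous_const
      continuous_snd).union (isOpen_lt continuous_const continuous_fst))) ⟨⟨t2, trivial⟩, Or.inr t1⟩
      ((cv (x := (t, 0)) ⟨t2, trivial⟩).inter ?_) fun x hx => Jv.right (hJ hx.1.1)
        (hx.2.resolve_left (lt_irrefl _))) using 1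
  · exact Subset.antisymm (fun p l => (em (p ∈ off T v)).imp (fun e => ⟨l, .inl e⟩) fun e =>
      ⟨tor_of_not_off e, l, trivial⟩) (union_subset inter_subset_left fun p l => l.2.1)
  · intro q hq x y hx hy hxy
    simp only [mem_ofPred_eq, Prod.snd_add, Prod.fst_add, Prod.smul_fst, Prod.smul_snd, smul_eq_mul, mul_zero,
      zero_add]
    rcases hy.eq_or_lt with rfl | hy
    · exact Or.inr (by rw [show x = 1 by linarith]; linarith)
    · exact hq.imp (mul_pos hy) fun k => Eq.trans_lt (by rw [← add_mul, hxy, one_mul])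
        (add_lt_add_of_le_of_lt (mul_le_mul_of_nonneg_left t1.le hx) (mul_lt_mul_of_pos_left k hy))

/-! ### the word of the plumbing -/

theorem jr {i j : ℤ} (h : ∀ k, i ≤ k → k ≤ j → wN k = a) (h1 : (i : ℝ) ≤ α) (h2 : β ≤ j + 1) :
    Ioo α β ⊆ Jr (wd wN) a := (Ioo_subset_Ioo h1 h2).trans (Ioo_subset_Jr' fun k p q => .inl (h k p q))

theorem w0 {k : ℤ} (h : k < 0 ∨ 20 ≤ k) : wN k = (1, 0) := by
  unfold wN Cut19.sw; split_ifs <;> first | rfl | omega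

theorem w1 {k : ℤ} (h : 0 ≤ k) (h' : k < 10) : wN k = (1, 1) := by
  unfold wN Cut19.sw; split_ifs <;> first | rfl | omega

theorem w2 {k : ℤ} (h : 10 ≤ k) (h' : k < 20) : wN k = (0, 1) := by
  unfold wN Cut19.sw; split_ifs <;> first | rfl | omega

theorem nv_sw {w : ℤ → Z2} {x₀ x₁ x₂ x₃ : Z2} (h : ∀ n, PM (w n) (Cut19.sw x₀ x₁ x₂ x₃ n)) {i j : ℤ} {s : Finset ℤ}
    (k : ∀ c ∈ ({0, 10, 20} : Finset ℤ), i < c → c ≤ j → c ∈ s) : nv w i j ≤ s.card :=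
  nv_le fun c p q u => by
    refine k c (by_contra fun a => u.not_pm ((h _).trans (PM.trans (.inl ?_) (h _).symm))) p q
    simp only [Finset.mem_insert, Finset.mem_singleton, not_or] at a
    unfold Cut19.sw; split_ifs <;> first | rfl | omega

variable [SigmaCompactSpace (X T (wd wN))] (hθ : Ang T θ (0, 1))
include hθ

theorem kbL : Kb (𝓡 4) 2 (preimage_mono (Ioo_subset_Ioo_right (by norm_num)) :
    T.time (wd wN) ⁻¹' Ioo (-10) (-6) ⊆ T.time (wd wN) ⁻¹' Ioo (-10) 16) 1 :=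
  kb_drop (hd_time isN (by norm_num) (by norm_num)) ((nv_sw (s := {0, 10}) (fun _ => .refl _) fun c hc _ q => by
      rw [show ⌈(16 : ℝ)⌉ = 16 by norm_num] at q
      simp only [Finset.mem_insert, Finset.mem_singleton] at hc ⊢
      omega).trans (by simp))
    (not_surj hθ (a := (1, 1)) (b := (0, 1)) (.inl rfl) rfl (t₀ := -7) (t₁ := 5)
      (jr (i := 0) (j := 9) (α := 0) (β := 10) (fun k p q => w1 p (by omega)) (by norm_num) (by norm_num) (by norm_num))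
      (csm_slab hθ (a := (1, 0)) rfl isOpen_Ioo
        (jr (i := -10) (j := -7) (fun k p q => w0 (by omega)) (by norm_num) (by norm_num)))
      (fun x hx => mem_of_eq_of_mem (s := Ioo (-10 : ℝ) (-6)) hx (by norm_num)) (convex_Ioo _ _) (by norm_num)
      (by norm_num) _)

theorem kbR : Kb (𝓡 4) 2 (preimage_mono (Ioo_subset_Ioo_left (by norm_num)) :
    T.time (wd wN) ⁻¹' Ioo 26 30 ⊆ T.time (wd wN) ⁻¹' Ioo 14 30) 0 := by
  have j2 := jr (i := 10) (j := 19) (α := 14) (β := 20) (fun k p q => w2 p (by omega)) (by norm_num) (by norm_num)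
  have j3 := jr (i := 20) (j := 29) (α := 20) (β := 30) (fun k p q => w0 (.inr p)) (by norm_num) (by norm_num)
  refine kb_drop (hd_right (a := (0, 1)) (b := (1, 0)) (c := 20) (.inr rfl) (fun t ht => ?_) (by norm_num)
    (by norm_num) (by norm_num)) le_rfl (not_surj hθ (a := (0, 1)) (b := (1, 0)) (.inr rfl) rfl (t₀ := 27) (t₁ := 15)
      (j2 (by norm_num)) (csm_slab hθ (a := (1, 0)) rfl isOpen_Ioo ((Ioo_subset_Ioo_left (by norm_num)).trans j3))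
      (fun x hx => mem_of_eq_of_mem (s := Ioo (26 : ℝ) 30) hx (by norm_num)) (convex_Ioo _ _) (by norm_num)
      (by norm_num) _)
  rcases lt_trichotomy t 20 with e | rfl | e
  · exact Jv.of_left (j2 ⟨ht.1, e⟩) e
  · exact_mod_cast mem_Jv_wd (a := wN) (i := 20) (.inr rfl)
  · exact Jv.of_right (j3 ⟨e, ht.2⟩) e

/-- the classes that vanish on both ends form a line -/
theorem line (hz : HZ (𝓡 4) 1 (T.time (wd wN) ⁻¹' Ioo 14 16)) {y e : X T (wd wN) → Ext E4}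
    (hy : Cl (𝓡 4) 2 (T.time (wd wN) ⁻¹' Ioo (-10) 30) y) (y1 : Ex (𝓡 4) (T.time (wd wN) ⁻¹' Ioo (-10) (-6)) y)
    (y2 : Ex (𝓡 4) (T.time (wd wN) ⁻¹' Ioo 26 30) y) (he : Cl (𝓡 4) 2 (T.time (wd wN) ⁻¹' Ioo (-10) 30) e)
    (e0 : ∀ p, T.time (wd wN) p ∈ Ioo (-10 : ℝ) 30 → T.time (wd wN) p ∉ Ioo (-2 : ℝ) 12 → e p = 0)
    (e1 : ¬Ex (𝓡 4) (T.time (wd wN) ⁻¹' Ioo (-10) 16) e) :
    ∃ s : ℝ, Ex (𝓡 4) (T.time (wd wN) ⁻¹' Ioo (-10) 30) (y - s • e) := by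
  have sL : T.time (wd wN) ⁻¹' Ioo (-10) 16 ⊆ T.time (wd wN) ⁻¹' Ioo (-10) 30 :=
    preimage_mono (Ioo_subset_Ioo_right (by norm_num))
  have sR : T.time (wd wN) ⁻¹' Ioo 14 30 ⊆ T.time (wd wN) ⁻¹' Ioo (-10) 30 :=
    preimage_mono (Ioo_subset_Ioo_left (by norm_num))
  obtain ⟨s, hs⟩ := Rk.surj_of_ne (kbL hθ) (f := LinearMap.toSpanSingleton ℝ _ ⟨(he.mono sL).cls,
    cls_eq_zero.2 (ex_of_zero fun p hp => e0 p ⟨hp.1, by linarith [hp.2]⟩ fun k => by linarith [hp.2, k.1])⟩) (x := 1)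
    (fun a => e1 (cls_eq_zero.1 (by simpa using congrArg Subtype.val a))) ⟨(hy.mono sL).cls, cls_eq_zero.2 y1⟩
  have u : T.time (wd wN) ⁻¹' Ioo (-10) 30 = T.time (wd wN) ⁻¹' Ioo (-10) 16 ∪ T.time (wd wN) ⁻¹' Ioo 14 30 := by
    rw [← preimage_union, Ioo_union_Ioo (by norm_num) (by norm_num)]
    norm_num
  refine ⟨s, u ▸ ex_union (isOpen_Ioo.preimage T.continuous_time) (isOpen_Ioo.preimage T.continuous_time) (k := 1)
    (by rw [← preimage_inter, Ioo_inter_Ioo]; norm_num; exact hz) (u ▸ hy.sub (he.smul s))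
    (cls_eq.1 ((congrArg Subtype.val hs).symm.trans (cls_smul s (he.mono sL)).symm)) (Ex.sub ?_ (Ex.smul s ?_))⟩
  · exact cls_eq_zero.1 (congrArg Subtype.val (rk_zero.1 (kbR hθ) ⟨(hy.mono sR).cls, cls_eq_zero.2 y2⟩))
  · exact ex_of_zero fun p hp => e0 p (sR hp) fun k => by linarith [hp.1, k.2]

omit hθ in
/-- CUT-MID -/
theorem mid : Cut19.MidStmt := by
  intro S Q R P hc Z _ m _ K E hE y z h
  obtain ⟨y0, y1, y2⟩ := h y (.inl rfl)
  obtain ⟨z0, z1, z2⟩ := h z (.inr rfl)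
  have := P.τ.T.secondCountable isN.loc
  have := Orx52.sigmaCompact (𝓡 4) (P.τ.X (wd wN))
  let φ : PartialDiffeomorph (𝓡 4) Z.X.P.I (P.τ.X (wd wN)) Z.M ∞ := m.φ
  have src : φ.source = P.τ.T.time (wd wN) ⁻¹' Ioo (-10) 30 := m.src
  have im : ∀ {J}, J ⊆ Ioo (-10 : ℝ) 30 → φ '' (P.τ.T.time (wd wN) ⁻¹' J) = Z.X.τ ⁻¹' J := m.image_preimage
  have mp : ∀ {J J'}, J ⊆ Ioo (-10 : ℝ) 30 → J ⊆ J' →
      Mp (𝓡 4) Z.X.P.I (P.τ.T.time (wd wN) ⁻¹' J) (Z.X.τ ⁻¹' J') φ := fun a b =>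
    (pd_mp φ (src ▸ preimage_mono a)).mono Subset.rfl ((im a).le.trans (preimage_mono b))
  have xp : ∀ {J c}, IsOpen J → J ⊆ Ioo (-10 : ℝ) 30 → Ex (𝓡 4) (P.τ.T.time (wd wN) ⁻¹' J) (pm (𝓡 4) Z.X.P.I φ c) →
      Ex Z.X.P.I (Z.X.τ ⁻¹' J) c := fun o a k =>
    im a ▸ ex_pd φ (o.preimage P.τ.T.continuous_time) (src ▸ preimage_mono a) k
  have s0 : Ioo (-2 : ℝ) 12 ⊆ Ioo (-10) 30 := Ioo_subset_Ioo (by norm_num) (by norm_num)
  have cE : Cs Z.X.P.I 2 (Z.X.τ ⁻¹' Ioo (-2) 12) E := (hE.csU ()).mono (im s0 ▸ image_mono fun p hp => by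
    have := abs_lt.1 ((P.τ.T.abs_time_le 5 p).trans_lt hp.2)
    exact ⟨by linarith [this.1], by linarith [this.2]⟩)
  have ee : ip Z.X.P.I Z.o E E = -1 := hE.gram () ()
  obtain ⟨s, hs⟩ := line P.gd.ang (hz_slab P.h.F P.h.hu (S.ob P.j).h1 isOpen_Ioo (convex_Ioo _ _) (P.ee ▸
      jr (i := 10) (j := 19) (fun k p q => w2 p (by omega)) (by norm_num) (by norm_num)))
    (y0.pm (mp Subset.rfl (subset_univ _))) (y1.pm (mp (Ioo_subset_Ioo_right (by norm_num)) Ioo_subset_Iio_self))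
    (y2.pm (mp (Ioo_subset_Ioo_left (by norm_num)) Ioo_subset_Ioi_self)) (cE.cl.pm (mp Subset.rfl (subset_univ _)))
    (fun p hp k => by rw [pm_apply, cE.eq_zero fun l => k (mem_of_eq_of_mem (m.tm p hp).symm l), map_zero])
    fun k => by
      rw [(cE.mono (preimage_mono (Ioo_subset_Ioo (by norm_num) (by norm_num)))).ip_ex Z.ori
        (xp isOpen_Ioo (Ioo_subset_Ioo_right (by norm_num)) k)] at ee
      norm_num at ee
  rw [← pm_smul, ← pm_sub] at hs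
  have hs := xp isOpen_Ioo Subset.rfl hs
  have o1 := (isOpen_Iio (a := -6)).preimage Z.X.cont
  have o2 := (isOpen_Ioi (a := 26)).preimage Z.X.cont
  obtain ⟨z', c1, c2, c3, -⟩ := Mv17.kill ((isOpen_Ioo (a := -8) (b := 28)).preimage Z.X.cont) (o1.union o2)
    (eq_univ_of_forall fun x => (lt_or_ge (Z.X.τ x) (-6)).elim (fun e => .inr (.inl e)) fun e =>
      (lt_or_ge 26 (Z.X.τ x)).elim (fun e => .inr (.inr e)) fun e' => .inl ⟨by linarith, by linarith⟩) z0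
    (ex_disj o1 o2 (disjoint_left.2 fun x (a : Z.X.τ x < -6) (b : 26 < Z.X.τ x) => by linarith) z1 z2)
  have cz : Cs Z.X.P.I 2 (Z.X.τ ⁻¹' Ioo (-10) 30) z' := ⟨c1, .of_compactSpace _, (closure_minimal
    (s := support z') (t := Z.X.τ ⁻¹' Icc (-8) 28)
    (fun x hx => by_contra fun k => hx (c3 x fun l => k ⟨l.1.le, l.2.le⟩))
    (isClosed_Icc.preimage Z.X.cont)).trans fun x l =>
      ⟨by linarith [l.1], by linarith [l.2]⟩⟩
  have cy : Cs Z.X.P.I 2 univ y := ⟨y0, .of_compactSpace _, subset_univ _⟩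
  have sm := fun U => (cE.on U).smul s
  change ip Z.X.P.I Z.o y z = -(ip Z.X.P.I Z.o y E * ip Z.X.P.I Z.o z E)
  rw [ip_comm y0.dg, ← cy.ip_coh Z.ori c1.sm z0.sm c2, ← ip_comm y0.dg, cz.ip_coh Z.ori (cy.on _).sm (sm _).sm hs,
    (cE.mono (preimage_mono s0)).ip_coh Z.ori (cy.on _).sm (sm _).sm hs, ip_smul, ip_smul, ee, ip_comm cE.cl.dg,
    (cE.mono (subset_univ _)).ip_coh Z.ori c1.sm z0.sm c2]
  ring

end Crest.Agent.X212.Top11.Mid
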