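import Crest.Agent.X212.Top11.Mid

/-!
# Row 212, layer GEO (helper11): CUT-PH
-/

set_option autoImplicit false
set_option linter.unusedSectionVars false

open Set Filter Topology Function Module
open scoped ContDiff Manifold Real
open Crest.Agent.R208 Crest.Agent.R208.FI
open Crest.Agent.R208.F hiding wd
open Crest.Agent.X212.Line51 hiding tp Uni
open Crest.Agent.X212.Orx52 Crest.Agent.X212.Rod53
open Crest.Agent.X212.Dr59 hiding IT
open Crest.Agent.X212.Rob53 (rT rU ch mp_τ st_τ st_bij mp_gl st_gl ch_inj res_aL cz_ne im_cz)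
open Crest.Agent.X212.Top11.Mid (hz_slab nv_sw)

noncomputable section

namespace Crest.Agent.X212.Top11.Ph

variable {EN HN : Type} [NormedAddCommGroup EN] [NormedSpace ℝ EN] [FiniteDimensional ℝ EN]
  [TopologicalSpace HN] {IN : ModelWithCorners ℝ EN HN} [IN.Boundaryless]
  {N : Type} [TopologicalSpace N] [ChartedSpace HN N] [IsManifold IN ∞ N] [T2Space N] [SecondCountableTopology N]
  {EN' HN' : Type} [NormedAddCommGroup EN'] [NormedSpace ℝ EN'] [FiniteDimensional ℝ EN']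
  [TopologicalSpace HN'] {IN' : ModelWithCorners ℝ EN' HN'} [IN'.Boundaryless]
  {N' : Type} [TopologicalSpace N'] [ChartedSpace HN' N'] [IsManifold IN' ∞ N'] [T2Space N']
  [SecondCountableTopology N'] {T : Tb IN N} {a b : Z2} {η : ℝ × ℝ} {k : ℕ}

theorem sj (T : Tb IN N) (h : HZ IN (k + 1) (univ : Set N)) (e : HR IT k cz) :
    ∃ y z, e = rT T k y - res (subset_univ _) z := by
  have := Orx52.sigmaCompact IN N
  obtain ⟨χ, hχ⟩ := exists_cut (I := IN) T.isOpen_Ex T.oe.isOpen_range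
  obtain ⟨e, rfl⟩ := (st_τ T isOpen_cz cz_ne (im_cz T) k).2 e
  obtain ⟨y, z, rfl⟩ := mv_int hχ (e := e) ((Subset.antisymm (Rob53.cover T) (subset_univ _) ▸ h).eq _)
  refine ⟨y, (mp_τ T fun w _ => mem_range_self w).st k z, ?_⟩
  rw [map_sub, Mp.st_res, Mp.st_res, Mp.res_st]
  rfl

/-- the classes of the exterior, seen from a filling -/
theorem fil (F : Fl T a b IN' N') (hu : Uni a b) : ∃ f : HR IN 1 T.Ex → HR IN' 1 F.tb.Ex, Surjective f ∧
    ∀ y (η : ℝ × ℝ), rT T 1 y = ch η.1 η.2 → rT F.tb 1 (f y) = ch (dr η b) (dr η a) :=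
  have k := F.tg' hu
  have m : Mp IN' IN F.tb.Ex T.Ex F.pe.symm := ⟨fun y hy => (k.ld y hy).contMDiffAt, k.bij.mapsTo⟩
  ⟨m.st 1, (st_bij m F.tb.isOpen_Ex k.ld k.bij ⟨_, (F.tb.τ_mem (w := (1, 1))).2 one_ne_zero⟩ 1).2, fun y η hy =>
    ((Mp.st_comp _ _ y).trans ((Mp.st_congr isOpen_cz _ _ k.eq y).trans (Mp.st_comp _ mp_gl y).symm)).trans
      ((congrArg _ hy).trans (st_gl a b η.1 η.2))⟩

theorem exists_cl (F : Fl T a b IN' N') (hu : Uni a b) (h : HZ IN' 2 (univ : Set N')) :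
    ∃ y η, rT T 1 y = ch η.1 η.2 ∧ dr η a = 1 := by
  obtain ⟨f, f1, f2⟩ := fil F hu
  obtain ⟨y, z, e⟩ := sj F.tb h (ch 0 1)
  obtain ⟨y, rfl⟩ := f1 y
  obtain ⟨s, rfl⟩ := span_st z
  obtain ⟨p, q, l⟩ := span_cz (rT T 1 y)
  rw [f2 y (p, q) l, res_aL, Rob53.sub_ch, sub_zero] at e
  exact ⟨y, (p, q), l, (ch_inj e).2.symm⟩

theorem dr_ne (F : Fl T a b IN' N') (hu : Uni a b) (h : HZ IN' 1 (univ : Set N')) {y : HR IN 1 T.Ex}
    (e : rT T 1 y = ch η.1 η.2) (h0 : dr η a = 0) (c : Z2) : dr η c = 0 := by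
  obtain ⟨f, -, f2⟩ := fil F hu
  have k := f2 y η e
  obtain ⟨x, hx, -⟩ := Rob53.mid F.tb (k.trans (h0 ▸ (res_aL _).symm))
  rw [← hx, h.eq x, map_zero, map_zero, h0] at k
  have h1 := (ch_inj ((show ch 0 0 = 0 by simp [ch]).trans k)).1
  have u : ((a.1 * b.2 - a.2 * b.1 : ℤ) : ℝ) ^ 2 = 1 := by exact_mod_cast (sq _).trans hu.sq
  simp only [dr] at *
  push_cast at u
  linear_combination (a.1 * b.2 - a.2 * b.1 : ℝ) * ((c.1 * b.2 - c.2 * b.1) * h0 - (a.1 * c.2 - a.2 * c.1) * h1) -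
    (η.1 * c.1 + η.2 * c.2) * u

/-- a representative that is toric near the core -/
theorem exists_xa {y : HR IN 1 T.Ex} (e : rT T 1 y = ch η.1 η.2) : ∃ α, XA T α η 1 := by
  have := Orx52.sigmaCompact IN N
  obtain ⟨α, hα, rfl⟩ := exists_cls y
  let φ := pdOn (f := T.τ) isOpen_cz cz_ne (fun z _ => T.ld z) T.inj.injOn
  have hU : IsOpen (φ '' cz) := pd_open φ isOpen_cz Subset.rfl
  have s : φ '' cz ⊆ T.Ex := (im_cz T).le.trans inter_subset_left
  have c : Cl IN 1 (φ '' cz) (psh φ (η.1 • aL + η.2 • aM)) :=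
    (((cl_aL.smul _).add (cl_aM.smul _)).pm (pd_mp_symm φ Subset.rfl)).congr hU fun p hp => indicator_of_mem hp _
  obtain ⟨q, q1, q2, q3⟩ := (ex_pd φ isOpen_cz Subset.rfl (a := α - psh φ (η.1 • aL + η.2 • aM))
    ((cls_eq.1 (e.trans (cls_add (cl_aL.smul _) (cl_aM.smul _)).symm)).congr fun w hw => by
      rw [pm_sub, Pi.sub_apply, pm_psh φ hw]; rfl)).deg ((hα.mono s).sub c).dg
  obtain ⟨χ, hχ⟩ := exists_cut (I := IN) hU (T.isOpen_Ex.inter (T.isClosed_tube 1).isOpen_compl)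
  have m : ∀ p ∈ T.Ex, p ∈ φ '' cz ∪ T.Ex ∩ (T.τ '' {z | ‖z.2‖ ≤ 1})ᶜ := fun p hp =>
    (em (p ∈ T.τ '' {z | ‖z.2‖ ≤ 1})).imp (fun k => (im_cz T).ge ⟨hp, image_subset_range _ _ k⟩) fun k => ⟨hp, k⟩
  have z : Cz IN T.Ex (φ '' cz) χ := ⟨fun p hp => hχ.sm p (m p hp), fun p hp k => hχ.z p ((m p hp).resolve_left k) k⟩
  refine ⟨α - dM IN (χ • q), hα.sub (cl_dM T.isOpen_Ex (z.sm_smul q1) (z.dg_smul q2)), fun w hw hr => ?_⟩
  have k : T.τ w ∈ φ '' cz := ⟨w, hw, rfl⟩
  refine (pm_congr_right ?_).trans (pm_psh φ hw (η.1 • aL + η.2 • aM))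
  rw [Pi.sub_apply, dM_congr (b := q) ((hχ.o _ k fun l => l.2 ⟨w, hr.le, rfl⟩).mono fun y hy => by simp [hy]),
    q3 _ k, Pi.sub_apply, sub_sub_cancel]

theorem drp {c : Z2} (h : PM c a) (hx : dr η a = 0) : dr η c = 0 := by
  rcases h with rfl | rfl
  · exact hx
  · simp only [dr, Prod.fst_neg, Prod.snd_neg, Int.cast_neg] at hx ⊢
    linarith

variable {w : ℤ → Z2} {i j : ℤ}

theorem hd_end [SigmaCompactSpace (X T (wd w))] (hw : IsWd w) (hij : i ≤ j) (h : ∀ l, j ≤ l → PM (w l) (w j)) :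
    Hd (𝓡 4) (T.time (wd w) ⁻¹' Iio (i + 1)) univ (nv w i j) := by
  have e : (i : ℝ) ≤ j := by exact_mod_cast hij
  have k := (rg_of_time (T := T) (v := wd w) isOpen_univ convex_univ).hd hw one_pos (fun _ _ _ => univ_nonempty)
    hij (β' := i) (β := i + 1) (γ := j + 1) (lt_add_one _) le_rfl Ioo_subset_Jr (by linarith) (lt_add_one _)
    (subset_univ _) isOpen_univ convex_univ (subset_univ _) fun x _ _ e => Ioi_subset_Jr h e
  rwa [← rg_time, preimage_univ, univ_inter, univ_inter] at k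

/-- CUT-PH -/
theorem ph : Cut19.PhStmt where
  h τ A _ _ a b e f _ _ _ w hw _ h := by
    have := τ.T.secondCountable hw.loc
    have := Orx52.sigmaCompact (𝓡 4) (τ.X (wd w))
    have k := hd_end (T := τ.T) hw (i := -1) (j := 20) (by norm_num) fun l hl =>
      (h l).trans (PM.trans (.inl (by unfold Cut19.sw; split_ifs <;> first | rfl | omega)) (h 20).symm)
    have z := fun {n} (hz : HZ A.Y.I n (univ : Set A.Y.M)) => hz_slab (v := wd w) f.F f.hu hz isOpen_Iio (convex_Iio _)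
      (Iio_subset_Jr (j := -1) fun l hl => (h l).trans (.inl (if_pos (by omega))))
    exact ⟨k.hz (by norm_num) (z A.h1), (k.bd2 (bd_zero.2 (z A.h2))).mono (nv_sw h fun _ hc _ _ => hc)⟩
  q τ A B a b f g hu w hw _ i h1 h2 := by
    have := τ.T.secondCountable hw.loc
    have := Orx52.sigmaCompact (𝓡 4) (τ.X (wd w))
    obtain ⟨y, η, e, ha⟩ := exists_cl f.F f.hu A.h2
    have hb : dr η b ≠ 0 := fun k => one_ne_zero (ha.symm.trans (dr_ne g.F g.hu B.h1 e k a))
    obtain ⟨α, hα⟩ := exists_xa e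
    let x : ℝ × ℝ := (a.2, -a.1)
    let s := dr x b / dr η b
    have s0 : s ≠ 0 := div_ne_zero (by
      have : ((a.1 * b.2 - a.2 * b.1 : ℤ) : ℝ) ≠ 0 := Int.cast_ne_zero.2 fun k => by
        have := hu.sq
        rw [show dt a b = 0 from k] at this
        omega
      intro k
      simp only [dr, x] at k
      push_cast at this
      exact this (by linarith)) hb
    let m : ℤ → ℝ × ℝ := fun l => if l < i then 0 else if l = i then x else s • η
    have m0 : ∀ l, l < i → m l = 0 := fun l h => if_pos h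
    have m1 : m i = x := (if_neg (lt_irrefl _)).trans (if_pos rfl)
    have m2 : ∀ l, i < l → m l = s • η := fun l h => (if_neg h.not_gt).trans (if_neg h.ne')
    have c : ∀ l, l ∉ ({i - 1, i} : Finset ℤ) → m (l + 1) = m l := fun l hl => by
      simp only [Finset.mem_insert, Finset.mem_singleton, not_or] at hl
      rcases lt_or_gt_of_ne hl.2 with k | k
      · rw [m0 _ k, m0 _ (by omega)]
      · rw [m2 _ k, m2 _ (by omega)]
    obtain ⟨F, hF⟩ := exists_WF (a := w) (r := 1 / 10) (by norm_num) hα (m := m) (fun l => by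
      by_cases k : l ∈ ({i - 1, i} : Finset ℤ)
      · rcases Finset.mem_insert.1 k with rfl | k
        · rw [sub_add_cancel, m1, m0 _ (by omega), sub_zero]
          exact drp (h1 _ (by omega)) (by simp only [dr, x]; ring)
        · rw [Finset.mem_singleton.1 k, m1, m2 _ (by omega)]
          refine drp (h2 _ le_rfl) ?_
          have : s * dr η b = dr x b := div_mul_cancel₀ _ hb
          simp only [dr, Prod.fst_sub, Prod.snd_sub, Prod.smul_fst, Prod.smul_snd, smul_eq_mul] at this ⊢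
          linear_combination this
      · rw [c l k, sub_self]
        simp [dr]) fun l => if l < i then 0 else s
    have cs := (hF.cs_time hα (by norm_num) hw (i := i - 1) (j := i + 1) (s := 0) (s' := s)
      (fun l hl => ⟨(m0 l (by omega)).trans (zero_smul _ _).symm, if_pos (by omega)⟩)
      fun l hl => ⟨m2 l (by omega), if_neg (by omega)⟩).mono (subset_univ _)
    borelize E4 (τ.X (wd w))
    refine ⟨F, cs, (Nv17.wc_ip (oX_spec hw.loc τ.ori) τ.hσ τ.pos hw isOpen_univ (hF.wc _) hF cs c).trans_ne ?_⟩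
    rw [Finset.sum_pair (by omega), sub_add_cancel, m1, m0 _ (by omega), m2 _ (by omega),
      show det2 0 (x - 0) + det2 x (s • η - x) = s * dr η a by simp [det2, dr, x]; ring, ha, mul_one]
    rcases τ.hσ with k | k <;> simp [k, s0, Real.pi_ne_zero]

end Crest.Agent.X212.Top11.Ph
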