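import Crest.Agent.X212.Top11.Sg
import Crest.Agent.X212.Cut19.Fam
import Crest.Agent.X212.Geo28.Bas

/-!
# Row 212, layer GEO (helper11): CUT-Q, the rod family at a rational homology sphere
-/

set_option autoImplicit false
set_option linter.unusedSectionVars false

open Set Filter Topology Function
open scoped ContDiff Manifold
open Crest.Agent.X212.Bor5.T Crest.Agent.X212.Geo28 Crest.Agent.X212.Cut19
open Crest.Agent.X212.Orx52 (Pos TPos pr oR oX oX_spec)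
open Crest.Agent.X212.Rod53 (Z2 Loc wd PM fn ac dt Uni Jr Jv TE IsWd)
open Crest.Agent.X212.Cyl58 (TIso)
open Crest.Agent.X212.Pen22 (Hw)
open Crest.Agent.X212.Rfl19 (ag_of_eq ag_symm ag_trans ag_comp nd_bot nd_top Nd)

noncomputable section

namespace Crest.Agent.X212.Top11.Q

open Sg

variable {τ : Tub} {Y : O3} {A B : Q3} {v v' : ℝ → Z2} {a b p q : Z2} {J : Set ℝ} {w w' : ℤ → Z2} {i : ℤ}
  {s t x : ℝ}

/-! ### words -/

theorem wd_Iio (i : ℤ) (h : ∀ n ≤ i, w n = w' n) (hs : s ≤ i + 1) : ∀ x ∈ Iio s, wd w x = wd w' x := fun x hx =>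
  Rod53.wd_congr (i := ⌊x⌋ - 1) (fun k _ => h k) ⟨by push_cast; linarith [Int.floor_le x], hx.trans_le hs⟩

theorem wd_Ioi (i : ℤ) (h : ∀ n, i ≤ n → w n = w' n) (hs : i ≤ s) : ∀ x ∈ Ioi s, wd w x = wd w' x := fun x hx =>
  Rod53.wd_congr (j := ⌊x⌋) (fun k hk _ => h k hk) ⟨hs.trans_lt hx, Int.lt_floor_add_one x⟩

theorem jr_Iio (i : ℤ) (h : ∀ n < i, PM (w n) a) (hs : s ≤ i) : Iio s ⊆ Jr (wd w) a :=
  (Iio_subset_Iio (by simpa using hs)).trans (Rod53.Iio_subset_Jr (j := i - 1) fun k hk => h k (by omega))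

theorem jr_Ioi (i : ℤ) (h : ∀ n, i ≤ n → PM (w n) a) (hs : i ≤ s) : Ioi s ⊆ Jr (wd w) a :=
  (Ioi_subset_Ioi hs).trans (Rod53.Ioi_subset_Jr h)

theorem jr_eq (hJ : IsOpen J) (e : ∀ x ∈ J, v' x = v x) (ht : t ∈ J) (h : t ∈ Jr v' a) : t ∈ Jr v a :=
  Rod53.Jr_of_eq h (interior_maximal e hJ ht)

theorem v1_wd (hu : Uni a b) (h : ∀ n < i, PM (w n) a) (h' : ∀ n, i ≤ n → PM (w n) b) : V1 (wd w) a b i :=
  fun _ => Rod53.mem_Jv.2 (.of_forall fun _ => ⟨fun k => Rod53.Jr.pm (jr_Iio i h le_rfl k),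
    fun k => k ▸ Rod53.wd_int_uni ((h _ (by omega)).uni ((h' i le_rfl).uni hu.symm).symm),
    fun k => Rod53.Jr.pm (jr_Ioi i h' le_rfl k)⟩)

theorem sn_v1 {x' : ℝ} (h : V1 v a b x) (h' : V1 v' a b x') : Sn v v' (x' - x) := fun t => by
  have k := (Rod53.mem_Jv.1 (h t)).self_of_nhds
  have k' := (Rod53.mem_Jv.1 (h' (t + (x' - x)))).self_of_nhds
  rcases lt_trichotomy t x with e | e | e
  · exact (k'.1 (by linarith)).trans (k.1 e).symm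
  · exact .inl ((k'.2.1 (by linarith)).trans (k.2.1 e).symm)
  · exact (k'.2.2 (by linarith)).trans (k.2.2 e).symm

theorem wd_ac (hu : Uni p q) (h : ∀ n, w' n = ac p q (w n)) (t : ℝ) : wd w' t = ac p q (wd w t) := by
  have k : ∀ x y, PM (ac p q x) (ac p q y) ↔ PM x y := fun x y => ⟨fun e => by
    simpa only [Rod53.du_ac hu] using e.ac (p := Rod53.du1 p q) (q := Rod53.du2 p q), fun e => e.ac⟩
  by_cases e : t = ⌊t⌋ ∧ ¬PM (w (⌊t⌋ - 1)) (w ⌊t⌋)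
  · rw [wd, wd, if_pos e, if_pos (by rwa [h, h, k]), Rod53.ac_zero]
  · rw [wd, wd, if_neg e, if_neg (by rwa [h, h, k]), h]

/-! ### rod manifolds -/

theorem conn (f : Fo τ Y a) : IsPreconnected τ.T.Ex :=
  have k := f.F.tg' f.hu
  k.bij.image_eq ▸ f.F.tb.isPreconnected_Ex.image _ fun y hy =>
    (k.ld y hy).contMDiffAt.continuousAt.continuousWithinAt

variable (hc : IsPreconnected τ.T.Ex)

/-- the product structure over rods -/
def nk (f : Fo τ Y a) (hv : Loc v) (hJ : IsOpen J) (h : J ⊆ Jr v a) : NK Y (rW τ hv hc) J :=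
  ⟨f.F.tiso (Y := Y.Y.pc) hv f.hu hJ h, (oX_spec hv τ.ori).tiso (Y := Y.Y.pc) f.F hv f.hu hJ h Y.ori f.pos⟩

/-- change of the rod structure -/
def ti (hv' : Loc v') (hv : Loc v) (hJ : IsOpen J) (e : ∀ x ∈ J, v' x = v x) : TI (rW τ hv' hc) (rW τ hv hc) J :=
  ⟨τ.T.chg hv' hv hJ e, (oX_spec hv' τ.ori).chg (oX_spec hv τ.ori) hv' hv hJ e⟩

omit hc in
theorem fn_cy (f : Fo τ Y a) (hJ : IsOpen J) (e : ∀ x ∈ J, v' x = v x) (y : Y.Y.M) (ht : t ∈ J)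
    (h : t ∈ Jr v' a) : fn τ.T τ.T id v' v (f.cy v' (y, t)) = f.cy v (y, t) := by
  unfold Fo.cy
  rcases f.F.surj y with ⟨q, rfl⟩ | ⟨w, rfl⟩
  · rw [f.F.cyf_ie, f.F.cyf_ie]
    exact (TE.refl τ.T).fn_ext (q := (q.1, t)) ((f.F.hW _).1 q.2)
  · rw [f.F.cyf_it, f.F.cyf_it]
    exact (TE.refl τ.T).fn_rod f.hu (.inr h) (.inr (interior_maximal e hJ ht))

omit hc in
theorem fn2 {v'' : ℝ → Z2} (hJ : IsOpen J) (e : ∀ x ∈ J, v x = v' x) {p : τ.X v} (h : τ.T.time v p ∈ J) :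
    fn τ.T τ.T id v' v'' (fn τ.T τ.T id v v' p) = fn τ.T τ.T id v v'' p :=
  fn_fn (.inr (interior_maximal e hJ h))

omit hc in
theorem ag_sn (f : Fo τ Y a) {d : ℝ} (h : Sn v v' d) {l : Filter ℝ} (k : ∀ᶠ t in l, t ∈ Jr v a) :
    Ag l (h.dif τ.T ∘ f.cy v) (f.cy v') := ⟨d, k.mono fun _ e y => h.cyf f.F f.hu y e⟩

theorem hw (f : Fo τ A.toO3 a) (g : Fo τ B.toO3 b) (hv : Loc v) (h : V1 v a b x) (h1 : Iio s ⊆ Jr v a)
    (h2 : Ioi t ⊆ Jr v b) (l : s ≤ t) : Hw f g (pc (a := some A.toO3) (b := some B.toO3)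
      (nk hc f hv isOpen_Iio h1) (nk hc g hv isOpen_Ioi h2) l).pm := by
  rintro c e ⟨v', x', hv', h', ⟨r⟩⟩ ⟨o1, o2⟩
  have k := sn_v1 h' h
  let φ : (m4 (rW τ hv' hc)).Dif (m4 c.toW4) := ⟨r.φ, r.pos⟩
  let ψ : (m4 (rW τ hv' hc)).Dif (m4 (rW τ hv hc)) := ⟨k.dif τ.T, k.pos (oX_spec hv' τ.ori) (oX_spec hv τ.ori)⟩
  have key : ∀ {Y : O3} {a : Z2} (f : Fo τ Y a) {l : Filter ℝ} (_ : Nd l) {u u' : Y.Y.M × ℝ → c.M} (d : ℝ),
      Ag l u u' → Ag l (r.φ ∘ f.cy v') u' → (∀ᶠ t in l, t ∈ Jr v' a) →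
      Ag l ((φ.symm.trans ψ).φ ∘ u) fun p => f.cy v (p.1, p.2 + d) := fun f l n u u' d a1 a2 a3 =>
    ag_trans n (ag_comp (ag_trans n a1 (ag_symm n a2)) _) (ag_trans n (ag_trans n
      (ag_of_eq (.of_forall fun _ _ => congrArg (k.dif τ.T) (r.φ.symm_apply_apply _))) (ag_sn f k a3))
      ⟨-d, .of_forall fun _ _ => by simp⟩)
  exact ⟨Pm.wk0 (φ.symm.trans ψ)
    (key f nd_bot s o1 r.ki (eventually_of_mem (Iio_mem_atBot x') fun t e => Rod53.Jv.left (h' t) e))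
    (key g nd_top t o2 r.ko (eventually_of_mem (Ioi_mem_atTop x') fun t e => Rod53.Jv.right (h' t) e)) rfl rfl⟩

/-- agreement of two words -/
local macro "sw_eq" : tactic => `(tactic| (intro n hn; unfold Cut19.sw; split_ifs <;> first | rfl | omega))

/-- the slopes of a word -/
local macro "sw_pm" : tactic =>
  `(tactic| (intro n hn; unfold Cut19.sw; split_ifs <;> first | assumption | exact PM.refl _ | omega))

/-- **CUT-Q** -/
theorem qStmt : QStmt := by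
  intro H3 Ph τ A B C a b e p q f g h qa pe hb hd
  have hc := conn f
  have qb : Uni q b := τ.hσ.symm.imp (fun k => by rw [hd, k, neg_neg]) fun k => by rw [hd, k]
  have qp : Uni q p := by
    have : dt q p = dt q b := by rw [← hb]; simp [dt]; ring
    rwa [Uni, this]
  have bp : Uni b p := by
    have : dt b p = dt q b := by rw [← hb]; simp [dt]; ring
    rwa [Uni, this]
  have r : ∀ x : Z2, PM x x ∨ Uni x x := fun x => .inl (PM.refl x)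
  have i1 := (isWd_sw ⟨_, qb⟩ ⟨_, bp⟩ ⟨_, bp⟩ ⟨_, bp⟩ (.inr qb) (r b) (r b))
  have i2 := (isWd_sw ⟨_, bp⟩ ⟨_, bp⟩ ⟨_, qp.symm⟩ ⟨_, qp.symm⟩ (r b) (.inr bp) (r p))
  have i3 := (isWd_sw ⟨_, qp.symm⟩ ⟨_, qp.symm⟩ ⟨_, qp.symm⟩ ⟨_, qb⟩ (r p) (r p) (.inr qp.symm))
  have i12 := (isWd_sw ⟨_, qb⟩ ⟨_, bp⟩ ⟨_, qp.symm⟩ ⟨_, qp.symm⟩ (.inr qb) (.inr bp) (r p)).loc
  have i23 := (isWd_sw ⟨_, bp⟩ ⟨_, bp⟩ ⟨_, qp.symm⟩ ⟨_, qb⟩ (r b) (.inr bp) (.inr qp.symm)).loc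
  have i := (isWd_sw ⟨_, qb⟩ ⟨_, bp⟩ ⟨_, qp.symm⟩ ⟨_, qb⟩ (.inr qb) (.inr bp) (.inr qp.symm))
  have i0 := (isWd_sw ⟨_, qb⟩ ⟨_, qb⟩ ⟨_, qb⟩ ⟨_, qb⟩ (r q) (r q) (r q)).loc
  have a1 : ∀ n < (0 : ℤ), PM (Cut19.sw q b b b n) a := by sw_pm
  have b1 : ∀ n, (0 : ℤ) ≤ n → PM (Cut19.sw q b b b n) b := by sw_pm
  have a2 : ∀ n < (10 : ℤ), PM (Cut19.sw b b p p n) b := by sw_pm
  have b2 : ∀ n, (10 : ℤ) ≤ n → PM (Cut19.sw b b p p n) e := by sw_pm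
  have a3 : ∀ n < (20 : ℤ), PM (Cut19.sw p p p q n) e := by sw_pm
  have b3 : ∀ n, (20 : ℤ) ≤ n → PM (Cut19.sw p p p q n) a := by sw_pm
  have j1 := jr_Iio (s := -6) 0 a1 (by norm_num)
  have k1 := jr_Ioi (s := 3) 0 b1 (by norm_num)
  have j2 := jr_Iio (s := 7) 10 a2 (by norm_num)
  have k2 := jr_Ioi (s := 13) 10 b2 (by norm_num)
  have j3 := jr_Iio (s := 17) 20 a3 (by norm_num)
  have k3 := jr_Ioi (s := 26) 20 b3 (by norm_num)
  have l12 := wd_Iio (w := Cut19.sw q b b b) (w' := Cut19.sw q b p p) (s := 7) 9 (by sw_eq) (by norm_num)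
  have r12 := wd_Ioi (w := Cut19.sw b b p p) (w' := Cut19.sw q b p p) (s := 3) 0 (by sw_eq) (by norm_num)
  have l23 := wd_Iio (w := Cut19.sw b b p p) (w' := Cut19.sw b b p q) (s := 17) 19 (by sw_eq) (by norm_num)
  have r23 := wd_Ioi (w := Cut19.sw p p p q) (w' := Cut19.sw b b p q) (s := 13) 10 (by sw_eq) (by norm_num)
  have lC := wd_Iio (w := Cut19.sw q b p p) (w' := Cut19.sw q b p q) (s := 17) 19 (by sw_eq) (by norm_num)
  have rC := wd_Ioi (w := Cut19.sw p p p q) (w' := Cut19.sw q b p q) (s := 13) 10 (by sw_eq) (by norm_num)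
  have rB := wd_Ioi (w := Cut19.sw b b p q) (w' := Cut19.sw q b p q) (s := 3) 0 (by sw_eq) (by norm_num)
  have el := wd_Iio (w := Cut19.sw q b p q) (w' := Cut19.sw q q q q) (s := -6) (-1) (by sw_eq) (by norm_num)
  have er := wd_Ioi (w := Cut19.sw q b p q) (w' := Cut19.sw q q q q) (s := 26) 20 (by sw_eq) (by norm_num)
  have j0 : univ ⊆ Jr (wd (Cut19.sw q q q q)) a := fun t _ =>
    jr_Ioi ⌊t - 1⌋ (by sw_pm) (Int.floor_le _) (sub_one_lt t)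
  let F : Fam τ hc i.loc i0 (some A) B C :=
    { W1 := rW τ i1.loc hc, W2 := rW τ i2.loc hc, W3 := rW τ i3.loc hc, W12 := rW τ i12 hc, W23 := rW τ i23 hc
      W := rW τ i.loc hc, W0 := rW τ i0 hc
      ki := nk hc f _ isOpen_Iio j1, o1 := nk hc g _ isOpen_Ioi k1, i2 := nk hc g _ isOpen_Iio j2
      o2 := nk hc h _ isOpen_Ioi k2, i3 := nk hc h _ isOpen_Iio j3, ko := nk hc f _ isOpen_Ioi k3
      l12 := ti hc _ _ isOpen_Iio l12, r12 := ti hc _ _ isOpen_Ioi r12, l23 := ti hc _ _ isOpen_Iio l23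
      r23 := ti hc _ _ isOpen_Ioi r23, lC := ti hc _ _ isOpen_Iio lC, rC := ti hc _ _ isOpen_Ioi rC
      rB := ti hc _ _ isOpen_Ioi rB
      nB y t k := (fn_cy g isOpen_Iio l12 y k.2 (k1 k.1)).trans (fn_cy g isOpen_Ioi r12 y k.1 (j2 k.2)).symm
      nC y t k := (fn_cy h isOpen_Iio l23 y k.2 (k2 k.1)).trans (fn_cy h isOpen_Ioi r23 y k.1 (j3 k.2)).symm
      as2 x k := (fn2 isOpen_Ioi r12 k.1).trans (fn2 isOpen_Iio l23 k.2).symm
      as3 x k := fn2 isOpen_Ioi r23 k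
      m := ti hc _ _ isOpen_Ioo fun _ _ => rfl
      m0 := ti hc _ _ isOpen_Ioo fun _ _ => rfl
      el := ti hc _ _ isOpen_Iio el, er := ti hc _ _ isOpen_Ioi er
      ml x k := (fn2 isOpen_univ (fun _ _ => rfl) trivial).trans (fn2 isOpen_Iio el k.2).symm
      mr x k := (fn2 isOpen_univ (fun _ _ => rfl) trivial).trans (fn2 isOpen_Ioi er k.1).symm }
  have ab : Uni a b := qa.symm.uni qb
  have be : Uni b e := (pe.symm.uni bp.symm).symm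
  have ea : Uni e a := pe.symm.uni (qa.symm.uni qp).symm
  have H := Ph.h τ A B C a b e f g h ⟨q, p, qa, pe, hb, hd⟩ _ i hc fun n => by
    unfold Cut19.sw; split_ifs <;> first | assumption | exact PM.refl _
  let κ := nk hc f i0 isOpen_univ j0
  refine ⟨hc, _, _, i.loc, i0, F, wd_ac qp.symm fun n => ?_, wd_ac qp.symm fun n => ?_,
    ⟨⟨Nv5.cy A.toO3 0 Fin.elim0 (fun j => j.elim0) fun j => j.elim0, Nv5.cy_isCyl _ _ _ _ _, ⟨?_⟩⟩, H.1, H.2,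
      Ph.q τ A B a b f g ab _ i1 hc 0 a1 b1, Ph.q τ B C b e g h be _ i2 hc 10 a2 b2,
      Ph.q τ C A e a h f ea _ i3 hc 20 a3 b3, ?_, hw hc f g _ (v1_wd ab a1 b1) j1 k1 _,
      hw hc g h _ (v1_wd be a2 b2) j2 k2 _, hw hc h f _ (v1_wd ea a3 b3) j3 k3 _⟩⟩
  · unfold wN Cut19.sw
    split_ifs <;> simp [ac, ← hb, add_comm]
  · unfold wB Cut19.sw
    split_ifs <;> simp [ac]
  · have k : ∀ y s, κ.k.toDiffeo.symm (f.cy _ (y, s)) = (y, s) := fun y s => κ.k.toDiffeo.symm_apply_apply (y, s)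
    refine Pm.wk0 (M4.Dif.symm (X := Nv5.cyM A.toO3) (X' := m4 (rW τ i0 hc)) ⟨κ.k.toDiffeo, κ.p⟩)
      ⟨-4, (eventually_lt_atBot 0).mono fun t ht y => ?_⟩ ⟨24, (eventually_gt_atTop 0).mono fun t ht y => ?_⟩ rfl rfl
    · have t1 : t + -6 < -6 := by linarith
      have t2 : t + -6 < 7 := by linarith
      have t3 : t + -6 < 17 := by linarith
      have m := jr_eq isOpen_Iio l12 t2 (j1 t1)
      refine (congrArg κ.k.toDiffeo.symm (((congrArg (fun x => F.el (F.lC x)) (fn_cy f isOpen_Iio l12 y t2 (j1 t1))).trans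
        (congrArg F.el (fn_cy f isOpen_Iio lC y t3 m))).trans (fn_cy f isOpen_Iio el y t1
          (jr_eq isOpen_Iio lC t3 m)))).trans ((k y _).trans (Prod.ext rfl ?_))
      show t + -6 = t + -4 + -2
      ring
    · have t1 : 26 < t + 26 := by linarith
      have t2 : 13 < t + 26 := by linarith
      refine (congrArg κ.k.toDiffeo.symm ((congrArg F.er (fn_cy f isOpen_Ioi rC y t2 (k3 t1))).trans
        (fn_cy f isOpen_Ioi er y t1 (jr_eq isOpen_Ioi rC t2 (k3 t1))))).trans ((k y _).trans (Prod.ext rfl ?_))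
      show t + 26 = t + 24 + 2
      ring
  · intro η hη
    obtain ⟨γ, h1, h2, h3, h4⟩ := H3.cyl A _ κ.k (-4) 24 (-6) 26 (by norm_num) (by norm_num) η hη
    exact ⟨γ, h1, h2, h3, fun x hx => h4 x fun k =>
      hx.elim (fun l => (Ei.i_neg _ l).not_gt k.1) fun l => (Ei.o_pos _ l).not_gt k.2⟩

end Crest.Agent.X212.Top11.Q
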