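import Crest.Agent.X212.Mod61.Rig
import Crest.Agent.X212.Map77.Fin
import Crest.Agent.X212.An.Ext

/-!
# Row 212, NTR-ALTC (helper11): the Fredholm alternative and the inhomogeneous bootstrap
-/

set_option autoImplicit false
set_option linter.unusedSectionVars false
noncomputable section
open scoped Manifold ContDiff Topology InnerProductSpace
open MeasureTheory Set Function Filter Module

namespace Crest.Agent.X212.Top11.Alc
open An Prm93 Sob92 Fred93 Map77 Mod61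

section abs
variable {X Y K Q : Type} [NormedAddCommGroup X] [NormedSpace ℝ X] [NormedAddCommGroup Y]
  [NormedSpace ℝ Y] [NormedAddCommGroup K] [NormedSpace ℝ K] [NormedAddCommGroup Q]
  [NormedSpace ℝ Q] [FiniteDimensional ℝ Q]

/-- onto, or a kernel vector outside the fields of the cuts -/
theorem alt {A : X →L[ℝ] Y} {a : ℤ} (hA : Fr A a) {D : K →L[ℝ] K} (hD : Fr D 0) (B : X →L[ℝ] K)
    (N : X × K →L[ℝ] Q) (e₁ : Y) (e₂ : K) (e₃ : Q) (l : K →ₗ[ℝ] Q)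
    (hl : ∀ η, D η = 0 → N (0, η) = 0 → l η = 0 → η = 0) (hn : 2 * (finrank ℝ Q : ℤ) ≤ a + 1) :
    (∀ y k s, ∃ v η, ∃ τ : ℝ, A v + τ • e₁ = y ∧ B v + D η + τ • e₂ = k ∧ N (v, η) + τ • e₃ = s) ∨
    ∃ v η, ∃ τ : ℝ, (v ≠ 0 ∨ τ ≠ 0) ∧ A v + τ • e₁ = 0 ∧ B v + D η + τ • e₂ = 0 ∧
      N (v, η) + τ • e₃ = 0 := by
  obtain ⟨T, F, e⟩ : ∃ T : (X × K) × ℝ →L[ℝ] (Y × K) × Q,
      Fr T (a + 0 + finrank ℝ ℝ - finrank ℝ Q) ∧ ∀ v η τ,
        T ((v, η), τ) = ((A v + τ • e₁, B v + D η + τ • e₂), N (v, η) + τ • e₃) :=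
    ⟨_, ((Fr.tri' B hA hD).coprod (ContinuousLinearMap.toSpanSingleton ℝ (e₁, e₂))).prod
      (N.coprod (ContinuousLinearMap.toSpanSingleton ℝ e₃)), fun _ _ _ => rfl⟩
  refine (em _).symm.imp (fun k y k' s => ?_) id
  have := F.1.finite_ker
  have i : Injective (l ∘ₗ LinearMap.snd ℝ X K ∘ₗ LinearMap.fst ℝ _ ℝ ∘ₗ T.ker.subtype) :=
    (injective_iff_map_eq_zero _).2 fun ⟨⟨⟨v, η⟩, τ⟩, h⟩ h0 => by
      have h := (e v η τ).symm.trans h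
      have h1 := congrArg (·.1.1) h
      have h2 := congrArg (·.1.2) h
      have h3 := congrArg (·.2) h
      obtain ⟨rfl, rfl⟩ := (not_or.1 fun z => k ⟨v, η, τ, z, h1, h2, h3⟩).imp not_not.1 not_not.1
      obtain rfl := hl η (by simpa using h2) (by simpa using h3) h0
      rfl
  have := LinearMap.finrank_le_finrank_of_injective i
  obtain ⟨⟨⟨v, η⟩, τ⟩, h⟩ := F.surj_of_finrank (by rw [finrank_self]; omega) ((y, k'), s)
  rw [e] at h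
  exact ⟨v, η, τ, congrArg (·.1.1) h, congrArg (·.1.2) h, congrArg (·.2) h⟩

variable {Z₁ Z₂ G X₁ X₂ Y₀ ι : Type} [NormedAddCommGroup Z₁] [NormedSpace ℝ Z₁]
  [NormedAddCommGroup Z₂] [NormedSpace ℝ Z₂] [NormedAddCommGroup G] [NormedSpace ℝ G]
  [NormedAddCommGroup X₁] [NormedSpace ℝ X₁] [NormedAddCommGroup X₂] [NormedSpace ℝ X₂]
  [NormedAddCommGroup Y₀] [NormedSpace ℝ Y₀] [Fintype ι] {H : ι → Type}
  [∀ i, NormedAddCommGroup (H i)] [∀ i, InnerProductSpace ℝ (H i)]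

/-- the alternative for the inner block of a chart with cuts -/
theorem alt2 (z₁ : ∀ z : Z₁, z = 0)
    (L : (X₁ × X₂) × (∀ i, H i) →L[ℝ] Y₀ × (∀ i, H i) × (ι → ℝ)) (Hs : Set ι)
    (𝒯 : Submodule ℝ (Y₀ × (∀ i, H i) × (ι → ℝ))) (ρ : Y₀ →L[ℝ] Y) (j : X →L[ℝ] X₁)
    {A : X × Z₁ →L[ℝ] (Z₂ × Y) × G} {a : ℤ} (hA : Fr A a) {D : ∀ i, H i →L[ℝ] H i}
    (hD : ∀ i, Fr (D i) 0) (ψ χ : ∀ i, H i)
    (t1 : ∀ e ∈ 𝒯, ∀ i ∉ Hs, e.2.1 i = 0 ∧ e.2.2 i = 0)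
    (t2 : ∀ e ∈ 𝒯, ρ e.1 = 0 → e.1 = 0)
    (la : ∀ α η, (∀ i ∉ Hs, η i = 0) →
      L ((j α, 0), η) ∈ 𝒯 ∧ ρ (L ((j α, 0), η)).1 = (A (α, 0)).1.2)
    (lk : ∀ η i, (L (0, η)).2.1 i = D i (η i) ∧ (L (0, η)).2.2 i = 2 * ⟪ψ i, η i⟫_ℝ)
    (ln : ∀ i ∈ Hs, ∀ η, D i η = 0 → ∃ s t : ℝ, η = s • ψ i + t • χ i)
    (hn : 2 * (Hs.ncard : ℤ) ≤ a + 1) {e₀} (h₀ : e₀ ∈ 𝒯) :
    (∀ e ∈ 𝒯, ∃ v, ∃ τ : ℝ, L v + τ • e₀ = e) ∨ ∃ α η, ∃ τ : ℝ, (∀ i ∉ Hs, η i = 0) ∧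
      (A (α, 0)).2 = 0 ∧ L ((j α, 0), η) + τ • e₀ = 0 ∧ (α ≠ 0 ∨ τ ≠ 0) := by
  classical
  let i₁ : X × Z₁ →L[ℝ] X₁ × X₂ := .inl ℝ _ _ ∘L j ∘L .fst ℝ _ _
  let D' : ∀ i, H i →L[ℝ] H i := fun i => if i ∈ Hs then D i else .id ℝ _
  have d1 : ∀ i ∈ Hs, D' i = D i := fun i hi => if_pos hi
  have d2 : ∀ i ∉ Hs, D' i = .id ℝ _ := fun i hi => if_neg hi
  let rs : Y₀ × (∀ i, H i) × (ι → ℝ) →L[ℝ] Hs → ℝ :=
    .pi fun i => .proj i.1 ∘L .snd ℝ _ _ ∘L .snd ℝ _ _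
  let B : X × Z₁ →L[ℝ] ∀ i, H i := .fst ℝ _ _ ∘L .snd ℝ _ _ ∘L L ∘L .inl ℝ _ _ ∘L i₁
  have key : ∀ e ∈ 𝒯, ∀ (v : X × Z₁) η (τ : ℝ), A v + τ • ((0, ρ e₀.1), 0) = ((0, ρ e.1), 0) →
      B v + dgl D' η + τ • e₀.2.1 = e.2.1 → rs (L (i₁ v, η)) + τ • rs e₀ = rs e →
      (∀ i ∉ Hs, η i = 0) ∧ (A (v.1, 0)).2 = 0 ∧ L ((j v.1, 0), η) + τ • e₀ = e :=
    fun e he ⟨α, z⟩ η τ h1 h2 h3 => by
      obtain rfl := z₁ z
      have k : ∀ i ∉ Hs, η i = 0 := fun i hi => by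
        have := congrFun h2 i
        rwa [Pi.add_apply, Pi.add_apply, Pi.smul_apply, (t1 _ he i hi).1, (t1 _ h₀ i hi).1, smul_zero,
          add_zero, show B (α, 0) i = 0 from (t1 _ (la α 0 fun _ _ => rfl).1 i hi).1, zero_add,
          dgl_apply, d2 i hi] at this
      have m := add_mem (la α η k).1 (𝒯.smul_mem τ h₀)
      refine ⟨k, by simpa using congrArg (·.2) h1, Prod.ext (sub_eq_zero.1 (t2 _ (sub_mem m he) ?_))
        (Prod.ext (funext fun i => ?_) (funext fun i => ?_))⟩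
      · rw [Prod.fst_sub, Prod.fst_add, Prod.smul_fst, map_sub, map_add, map_smul, (la α η k).2]
        exact sub_eq_zero.2 (congrArg (·.1.2) h1)
      · by_cases hi : i ∈ Hs
        · refine Eq.trans ?_ (congrFun h2 i)
          rw [show ((j α, (0 : X₂)), η) = ((j α, 0), 0) + (0, η) by simp, map_add]
          have : (L (0, η)).2.1 i = dgl D' η i := by rw [dgl_apply, d1 i hi, (lk η i).1]
          exact congrArg (_ + · + _) this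
        · exact (t1 _ m i hi).1.trans (t1 _ he i hi).1.symm
      · by_cases hi : i ∈ Hs
        · exact congrFun h3 ⟨i, hi⟩
        · exact (t1 _ m i hi).2.trans (t1 _ he i hi).2.symm
  refine (alt hA (fr_dgl (T := D') fun i => ?_) B (rs ∘L L ∘L i₁.prodMap (.id ℝ _))
    ((0, ρ e₀.1), 0) e₀.2.1 (rs e₀) (.pi fun i => (innerSL ℝ (χ i.1)).toLinearMap ∘ₗ .proj i.1)
    (fun η h1 h2 h3 => funext fun i => ?_) ?_).imp (fun k e he => ?_) fun ⟨v, η, τ, k, h1, h2, h3⟩ => ?_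
  · by_cases hi : i ∈ Hs
    exacts [d1 i hi ▸ hD i, d2 i hi ▸ Fr.id]
  · have h1 : D' i (η i) = 0 := congrFun h1 i
    by_cases hi : i ∈ Hs
    · obtain ⟨s, t, e⟩ := ln i hi (η i) (d1 i hi ▸ h1)
      have h2 : (L (i₁ 0, η)).2.2 i = 0 := congrFun h2 ⟨i, hi⟩
      rw [map_zero, (lk η i).2, mul_eq_zero_iff_left two_ne_zero] at h2
      refine inner_self_eq_zero (𝕜 := ℝ).1 ?_
      nth_rewrite 1 [e]
      rw [inner_add_left, real_inner_smul_left, real_inner_smul_left, h2,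
        show ⟪χ i, η i⟫_ℝ = 0 from congrFun h3 ⟨i, hi⟩, mul_zero, mul_zero, add_zero]
    · rwa [d2 i hi] at h1
  · rwa [finrank_fintype_fun_eq_card, ← Nat.card_eq_fintype_card]
  · obtain ⟨v, η, τ, h1, h2, h3⟩ := k ((0, ρ e.1), 0) e.2.1 (rs e)
    exact ⟨_, τ, (key e he v η τ h1 h2 h3).2.2⟩
  · obtain ⟨k1, k2, k3⟩ := key 0 (zero_mem _) v η τ
      (h1.trans (by rw [Prod.fst_zero, map_zero]; rfl)) h2 (h3.trans (map_zero _).symm)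
    exact ⟨v.1, η, τ, k1, k2, k3, k.imp_left fun n e => n (Prod.ext e (z₁ _))⟩

theorem mem_pm (f : X →L[ℝ] Y) (g : X₁ →L[ℝ] X₂) {w : Y × X₂ × K} {a b} (h1 : f a = w.1)
    (h2 : g b = w.2.1) : w ∈ range (f.prodMap (g.prodMap (.id ℝ K))) :=
  ⟨(a, b, w.2.2), Prod.ext h1 (Prod.ext h2 rfl)⟩

end abs

variable {E : Type} [NormedAddCommGroup E] [NormedSpace ℝ E] [FiniteDimensional ℝ E]
  [MeasurableSpace E] [BorelSpace E]
  {HM : Type} [TopologicalSpace HM] {I : ModelWithCorners ℝ E HM} [I.Boundaryless]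
  {M : Type} [TopologicalSpace M] [ChartedSpace HM M] [IsManifold I ∞ M]
  [MeasurableSpace M] [T2Space M] [BorelSpace M] [SecondCountableTopology M]
  {ι : Type} [Fintype ι] {lam : Type} [Fintype lam]
  {T : Type} [NormedAddCommGroup T] [NormedSpace ℝ T]
  {𝔉 : Fam I M ι lam T} {o : Ref 𝔉} {r n m k j : ℕ} {e : T → PtX M ι lam r n m}

theorem iY_iY {i : ℕ} (h1 : k ≤ j) (h2 : j ≤ i) (w : o.Y n m i) :
    o.iY n m k j (o.iY n m j i w) = o.iY n m k i w := by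
  obtain ⟨e1, e2, e3⟩ := snd_snd (iY_apply (k := j) w)
  rw [iY_apply, iY_apply (k := k) w, e1, e2, e3, incl_incl h2 h1, incl_incl h2 h1]

variable {Fs : T → Fr I M ι} (A : Adj 𝔉 Fs)
include A

/-- solutions of the gauge fixed linearisation with smooth right side are smooth -/
theorem boot' (he : Aff o Fs r n m e) (hk : 7 ≤ k) (y : Pnt o r) {f : o.C r k → o.Y n m k}
    (hf : RepF e f) {v : o.C r k} (ht : v.2.2.2 = 0)
    (h1 : ∀ j, k ≤ j → fderiv ℝ f (y.pt k) v ∈ range (o.iY n m k j))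
    (h2 : sig Fs k y v = 0) (hj : k ≤ j) : v ∈ range (o.iC r k j) := by
  induction j, hj using Nat.le_induction with
  | base => exact ⟨v, iC_self v⟩
  | succ j hj ih =>
    obtain ⟨u, rfl⟩ := ih
    obtain ⟨g, g1, g2⟩ := he j (hk.trans hj)
    have H := A.hy o y.ht
    have U := (Mod61.isOpen_U A.toOK).mem_nhds (y.mem_U (k := j))
    have c : HasFDerivAt (fun v => f0 o Fs r n m j v + o.iY n m j (j + 1) (g v)) _ _ :=
      ((A.sm_f0.contDiffAt U).differentiableAt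
      (by simp)).hasFDerivAt.add ((o.iY n m j (j + 1)).hasFDerivAt.comp _
        ((g1.contDiffAt U).differentiableAt (by simp)).hasFDerivAt)
    obtain ⟨w, h1⟩ := h1 (j + 1) (by omega)
    rw [hf.lin_level A.toOK (by omega) hj (A.repF g1 g2), ← iY_iY hj j.le_succ] at h1
    have e1 := (iY_inj hj h1).symm
    rw [HasFDerivAt.fderiv c, _root_.add_apply, lin_f0 A (by omega) y (iC_t u ▸ ht),
      ← eq_sub_iff_add_eq] at e1
    have e2 := congrArg (sY o n m j) e1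
    rw [sY_jY, ContinuousLinearMap.comp_apply, ← map_sub, ← incl_sY j.le_succ] at e2
    have e3 : row Fs j y y.t u = 0 := Ell97.incl_inj 𝔉.F0 hj _ (by
      rw [A.incl_row y y.ht hj, map_zero, row_apply, ut_self]; exact h2)
    rw [row_apply, ut_self] at e3
    obtain ⟨w, rfl⟩ := A.mem_iC y.ht j.le_succ (H.reg_pair (H.nc_row (cb_uy A.toOK y))
      (H.nc_lin (cb_uy A.toOK y)) rfl (H.cliff_mix _ _) j.le_succ ⟨0, (map_zero _).trans e3.symm⟩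
      ⟨_, e2.symm⟩)
    exact ⟨w, (iC_iC hj j.le_succ w).symm⟩

/-- the same for values -/
theorem boot_hs (he : Aff o Fs r n m e) (hk : 7 ≤ k) (y : Pnt o r) {f : o.C r k → o.Y n m k}
    (hf : RepF e f) {v : o.C r k} (ht : v.2.2.2 = 0)
    (hD : 𝔉.F0.val k _ (fderiv ℝ f (y.pt k) v).1 ∈ Hs 𝔉.F0.toPre o.Pm)
    (hC : 𝔉.F0.val k _ (fderiv ℝ f (y.pt k) v).2.1 ∈ Hs 𝔉.F0.toPre o.P2)
    (h2 : sig Fs k y v = 0) : 𝔉.F0.val _ _ v.1 ∈ Hs 𝔉.F0.toPre o.P1 ∧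
      𝔉.F0.val _ _ v.2.1 ∈ Hs 𝔉.F0.toPre o.Pp := by
  have S := A.toOK.sup
  have k4 : 4 ≤ k := by omega
  have a : ∀ j, k ≤ j → fderiv ℝ f (y.pt k) v ∈ range (o.iY n m k j) := fun j hj =>
    mem_pm _ _ ((Mod61.incl_ofV S hD k4 hj).trans (ofV_eq S k4 rfl))
      ((Mod61.incl_ofV S hC k4 hj).trans (ofV_eq S k4 rfl))
  have b : ∀ j, k + 1 ≤ j → (∃ g, 𝔉.F0.incl j (k + 1) _ g = v.1) ∧
      ∃ g, 𝔉.F0.incl j (k + 1) _ g = v.2.1 := fun j hj => by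
    obtain ⟨i, rfl⟩ : ∃ i, j = i + 1 := ⟨j - 1, by omega⟩
    obtain ⟨g, hg⟩ := boot' A (j := i) he hk y hf ht a h2 (by omega)
    obtain ⟨e1, e2, -⟩ := snd_snd (hg.symm.trans (iC_apply g))
    exact ⟨⟨_, e1.symm⟩, _, e2.symm⟩
  exact ⟨Hs_of_all S (by omega) fun j hj => (b j hj).1, Hs_of_all S (by omega) fun j hj => (b j hj).2⟩

end Crest.Agent.X212.Top11.Alc
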