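import Crest.Agent.X212.Gla92.US
import Crest.Agent.X212.Csm97.Mod
import Crest.Agent.X212.Mon62.NkN

/-! # Row 212, GL-CUTU (helper11), part 1: the symbol of a cut in the calculus of `Mon62` -/

set_option autoImplicit false
set_option linter.unusedSectionVars false
set_option maxSynthPendingDepth 3
noncomputable section
open scoped Manifold ContDiff Topology InnerProductSpace
open Set Function Filter

namespace Crest.Agent.X212.Top11.Cu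
open An Prm93 Mod61 Mon62 Mon62.Dm Sob92 Csm97 Gla92
open Ell97 (UB)
open Std94 (Kl)

section kl
variable {Z : Type} {K : Kl Z} {N : Type} [NormedAddCommGroup N] [NormedSpace ℝ N]

theorem kl_congr {f g : Z → N} (h : K.mem f) (e : ∀ x, g x = f x) : K.mem g := by
  rwa [show g = f from funext e]

theorem kl_ls {α : Type} {f : α → Z → N} :
    ∀ l : List α, (∀ a ∈ l, K.mem (f a)) → K.mem fun x => (l.map fun a => f a x).sum
  | [], _ => K.const 0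
  | a :: l, h =>
    K.add (h a List.mem_cons_self) (kl_ls l fun b hb => h b (List.mem_cons_of_mem a hb))

theorem kl_fs {α : Type} (s : Finset α) {f : α → Z → N} (h : ∀ a ∈ s, K.mem (f a)) :
    K.mem fun x => ∑ a ∈ s, f a x :=
  kl_congr (Kl.fsum Finset.univ fun a : s => h a a.2) fun x =>
    (s.sum_coe_sort fun a => f a x).symm

theorem kl_toLp {α : Type} [Fintype α] {f : α → Z → ℝ} (h : ∀ a, K.mem (f a)) :
    K.mem fun x => (WithLp.toLp 2 fun a => f a x : Eu α) := by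
  classical
  refine kl_congr (Kl.fsum Finset.univ fun a =>
    Kl.smul (h a) (K.const (EuclideanSpace.single a (1 : ℝ)))) fun x => ?_
  ext b
  simp [Pi.single_apply]

variable {κ : Type} [Fintype κ]

theorem kl_pa {A p p' q q' : Z → En κ} (hA : K.mem A) (hp : K.mem p) (hp' : K.mem p')
    (hq : K.mem q) (hq' : K.mem q') : K.mem fun x => pa (A x) (p x) (p' x) (q x) (q' x) :=
  have h : K.mem fun x => pa1 (A x) (p x) (p' x) :=
    K.add hA (Kl.mulL (Kl.sub (Kl.csmul 2 hp) (K.const 1))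
      (K.add hp' (Kl.sub (Kl.mulL hA hp) (Kl.mulL hp hA))))
  Kl.sub h (Kl.csmul _ (Kl.mulL hq (K.add hq' (Kl.sub (Kl.mulL h hq) (Kl.mulL hq h)))))

/-- the row of a cut -/
theorem kl_row (Jc : En κ) {p : Z → En κ} (hp : K.mem fun z => (Hd Jc (p z)).starProjection)
    {g : Z → Ci → En κ} (hg : K.mem fun z => cm (g z)) {W : Type} {S : Finset W} {γ : W → Z → ℝ}
    {Ξ : W → Z → En κ} (m n : W → ℕ) (hΞ : ∀ w ∈ S, K.mem fun z => γ w z • Ξ w z)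
    {ψ : Z → L2c κ} (hψ : K.mem ψ) : K.mem fun z : Z =>
      (((tpz Jc (p z) (g z) - ∑ w ∈ S, γ w z • frk Jc (p z) (m w) (n w) (Ξ w z))
        ((Hd Jc (p z)).orthogonalProjectionOnto (ψ z))).1 +
        (ψ z - ((Hd Jc (p z)).orthogonalProjectionOnto (ψ z)).1) : L2c κ) := by
  have a := K.app hp hψ
  refine kl_congr (K.add (Kl.sub (K.app hp (K.app (Kl.clm mulC hg) a)) (kl_fs S fun w hw =>
    K.app hp (Kl.clm (md Jc (m w)) (K.app (hΞ w hw) (Kl.clm (fc Jc (n w)) a))))) (Kl.sub hψ a))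
    fun z => ?_
  simp only [sub_apply, sum_apply, smul_apply, Submodule.coe_sub, Submodule.coe_sum,
    Submodule.coe_smul, map_smul]
  rfl

theorem Sy_eq (pp : En κ) (a : C(II × Ci, En κ)) (p : En κ) : Sy pp a p = Sy 0 a p + cst _ pp := by
  ext1 θ
  change _ = Sy 0 a p θ + pp
  rw [Sy_apply, Sy_apply]
  abel

/-- a smooth function that is `‖w‖⁻¹` for `c ≤ ‖w‖` -/
theorem ex_inr (V : Type) [NormedAddCommGroup V] [InnerProductSpace ℝ V] {c : ℝ} (hc : 0 < c) :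
    ∃ g : V → ℝ, ContDiff ℝ ∞ g ∧ ∀ w, c ≤ ‖w‖ → g w = ‖w‖⁻¹ := by
  refine ⟨fun w => c⁻¹ * Mon62.isq (‖w‖ ^ 2 / c ^ 2 - 1), contDiff_const.mul (contDiff_isq.comp
    (((contDiff_norm_sq ℝ).div_const _).sub contDiff_const)), fun w h => ?_⟩
  have h1 : 1 ≤ ‖w‖ / c := (one_le_div hc).2 h
  beta_reduce
  rw [← div_pow, Mon62.isq_eq (by nlinarith), add_sub_cancel, Real.sqrt_sq (by linarith),
    ← mul_inv, mul_div_cancel₀ _ hc.ne']

end kl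

variable {E : Type} [NormedAddCommGroup E] [NormedSpace ℝ E] [FiniteDimensional ℝ E]
  [MeasurableSpace E] [BorelSpace E]
  {HM : Type} [TopologicalSpace HM] {I : ModelWithCorners ℝ E HM} [I.Boundaryless]
  {M : Type} [TopologicalSpace M] [ChartedSpace HM M] [IsManifold I ∞ M]
  [MeasurableSpace M] [T2Space M] [BorelSpace M] [SecondCountableTopology M] {ι : Type} [Fintype ι]
  {lam : Type} [Fintype lam]
  {J : Type} {X Y : J → Type} [∀ i, NormedAddCommGroup (X i)] [∀ i, NormedSpace ℝ (X i)]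
  {N : Type} [NormedAddCommGroup N] [NormedSpace ℝ N]
  {V : Type} [NormedAddCommGroup V] [InnerProductSpace ℝ V] [FiniteDimensional ℝ V]
  (D : Dm I M ι X Y) {k : Cut M lam}

/-- numbers -/
def scK : Kl (Σ i, Y i) :=
  ⟨fun f => D.Sc fun i y => f ⟨i, y⟩, Sc.const, Sc.add,
    fun h h' => h.bil (ContinuousLinearMap.id ℝ _) h'⟩

/-- functions along the paths -/
def pK : Kl ((Σ i, Y i) × II × Ci) :=
  ⟨fun {N} _ _ f => ∃ g : ∀ i, Y i → C(II × Ci, N), D.Sc g ∧ ∀ q, f q = g q.1.1 q.1.2 q.2,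
    fun c => ⟨_, Sc.const (ContinuousMap.const _ c), fun _ => rfl⟩,
    fun ⟨_, h1, h2⟩ ⟨_, k1, k2⟩ => ⟨_, h1.add k1, fun q => by simp only [h2, k2]; rfl⟩,
    fun ⟨_, h1, h2⟩ ⟨_, k1, k2⟩ => ⟨_, h1.bil (bilC (ContinuousLinearMap.id ℝ _)) k1,
      fun q => by simp only [h2, k2]; rfl⟩⟩

/-- functions that agree on `A` with smooth families of bounded functions -/
def eK (A : Set M) : Kl ((Σ i, Y i) × M) :=
  ⟨fun {N} _ _ f => ∃ p : ∀ i, X i → M → N, D.US p ∧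
      ∀ q, q.2 ∈ A → f q = p q.1.1 (D.pt _ q.1.2) q.2,
    fun c => ⟨_, US.fixed (UB.const c), fun _ _ => rfl⟩,
    fun ⟨_, h1, h2⟩ ⟨_, k1, k2⟩ => ⟨_, us_add h1 k1, fun q h => by simp only [h2 q h, k2 q h]⟩,
    fun ⟨_, h1, h2⟩ ⟨_, k1, k2⟩ => ⟨_, us_app h1 k1, fun q h => by simp only [h2 q h, k2 q h]⟩⟩

variable {D} {A : Set M}

theorem ek_us {p : ∀ i, X i → M → N} (h : D.US p) :
    (eK D A).mem fun q => p q.1.1 (D.pt _ q.1.2) q.2 := ⟨p, h, fun _ _ => rfl⟩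

theorem ek_ub {f : J → M → N} (h : UB D.P f) : (eK D A).mem fun q => f q.1.1 q.2 :=
  ek_us (US.fixed h)

theorem ek_inv {w : (Σ i, Y i) × M → V} (h : (eK D A).mem w) {c : ℝ} (hc : 0 < c)
    (lb : ∀ q, q.2 ∈ A → c ≤ ‖w q‖) : (eK D A).mem fun q => ‖w q‖⁻¹ :=
  let ⟨_, h1, h2⟩ := h; let ⟨_, g1, g2⟩ := ex_inr V hc
  ⟨_, h1.comp g1, fun q e => by rw [← h2 q e, g2 _ (lb q e)]⟩

theorem pk_ev {f : (Σ i, Y i) × II × Ci → N} (h : (pK D).mem f) (z : II × Ci) :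
    (scK D).mem fun q => f (q, z) :=
  let ⟨_, h1, h2⟩ := h; (h1.clm (evC z)).congr fun i y => h2 (⟨i, y⟩, z)

theorem vel_of {F F' : Fr I M ι} {S : ι → ι → ℝ} {θ : Ci} {s : ℝ}
    (h : ∀ b, F.e b (k.γ θ s) = ∑ c, S b c • F'.e c (k.γ θ s)) (a : ι) :
    k.vel F' θ s a = ∑ c, F'.P a c (k.γ θ s) * ∑ b, k.vel F θ s b * S b c := by
  have e : ∀ b, Num57.ee F (k.γ θ s) b = ∑ c, S b c • Num57.ee F' (k.γ θ s) c := h
  rw [← Num57.tl_comb, Cut.vel]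
  conv_lhs => rw [← (Num57.cf F (k.γ θ s)).ex (mfderiv 𝓘(ℝ, ℝ) I (k.γ θ) s (1 : ℝ))]
  simp only [e, Finset.smul_sum, smul_smul, Finset.sum_smul]
  rw [Finset.sum_comm]
  rfl

section path
variable (h : Dat I k)
include h

theorem pk_ek {f : (Σ i, Y i) × M → N} (hf : (eK D k.supp).mem f) :
    (pK D).mem fun q => f (q.1, k.γ q.2.2 q.2.1) :=
  let ⟨p, h1, h2⟩ := hf
  ⟨fun i y => h.resB (D.P i) (toB _ 0 (p i (D.pt i y))), ⟨_, (h1.uc 0).clm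
    (L := fun i => h.resB (D.P i)) ⟨1, fun _ => LinearMap.mkContinuous_norm_le _ zero_le_one _⟩,
    fun _ _ => rfl⟩, fun _ => (h2 _ ⟨(_, _), rfl⟩).trans
      (congrFun (fn_toB (h1.cb _ _ (D.mem _ _))) _).symm⟩

theorem sc_ek {f : (Σ i, Y i) × M → N} (hf : (eK D k.supp).mem f) :
    (scK D).mem fun q => f (q, k.x0) := pk_ev (pk_ek h hf) (⟨0, le_rfl, zero_le_one⟩, 0)

theorem pk_a0 {ε : Prop} {j : ℕ} (hj : 4 ≤ j) {w : ∀ i, Y i → M → V} (hw : D.A0 ε j w) :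
    (pK D).mem fun q => w q.1.1 q.1.2 (k.γ q.2.2 q.2.1) := by
  have := FiniteDimensional.complete ℝ V
  obtain ⟨b, δ, h1, -, h3, h4⟩ := hw.ex
  have a : (pK D).mem fun q => D.vl (δ _ (D.pt _ q.1.2)) (k.γ q.2.2 q.2.1) :=
    ⟨_, ⟨_, h3.clm (L := fun i => valC h (D.sup i) hj _) ⟨_, fun i => norm_valC h (D.sup i) hj _⟩,
      fun _ _ => rfl⟩, fun _ => rfl⟩
  exact kl_congr ((pK D).add (pk_ek h (ek_ub h1)) a) fun q => h4 _ _ _

theorem pk_vel (F₀ : Fr I M ι) {F : (Σ i, Y i) → Fr I M ι} {S : ι → ι → (Σ i, Y i) × M → ℝ}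
    (hS : ∀ b c, (eK D k.supp).mem (S b c))
    (hP : ∀ a c, (eK D k.supp).mem fun q => (F q.1).P a c q.2)
    (e : ∀ q, ∀ x ∈ k.supp, ∀ b, F₀.e b x = ∑ c, S b c (q, x) • (F q).e c x) (a : ι) :
    (pK D).mem fun q => k.vel (F q.1) q.2.2 q.2.1 a :=
  have v : ∀ b, (pK D).mem fun q => k.vel F₀ q.2.2 q.2.1 b := fun b =>
    ⟨_, Sc.const (c2 fun θ s => k.vel F₀ θ s b), fun q => (c2_apply (h.vel_cont F₀ b) q.2).symm⟩
  kl_congr (Kl.fsum Finset.univ fun c => Kl.mul (pk_ek h (hP a c)) (Kl.fsum Finset.univ fun b =>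
    Kl.mul (v b) (pk_ek h (hS b c)))) fun q => vel_of (e q.1 _ ⟨(_, _), rfl⟩) a

theorem pk_der {G : ∀ i, X i → Fr I M ι} (hF : D.FF G)
    (hv : ∀ a, (pK D).mem fun q => k.vel (G q.1.1 (D.pt _ q.1.2)) q.2.2 q.2.1 a)
    {f : (Σ i, Y i) × M → N} (hf : (eK D k.supp).mem f) :
    (pK D).mem fun q => deriv (fun s => f (q.1, k.γ q.2.2 s)) q.2.1 := by
  obtain ⟨p, h1, h2⟩ := hf
  refine kl_congr (Kl.fsum Finset.univ fun a => Kl.smul (hv a)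
    (pk_ek h (ek_us (us_dG hF h1 a)))) fun q => ?_
  rw [show (fun s => f (q.1, k.γ q.2.2 s)) = fun s => p _ (D.pt _ q.1.2) (k.γ q.2.2 s) from
    funext fun s => h2 (q.1, _) ⟨(_, _), rfl⟩]
  exact (h.der _ ((Cb.sm (h1.cb _ _ (D.mem _ _))).mdifferentiableAt (by simp))).deriv

end path

variable {μ : MF M ι lam J} {r j : ℕ} {ε : Prop} {κ : CF D μ r} {B : J → Base M ι lam}

variable (κ B k) in
/-- uniform data of a cut -/
structure Hy (ε : Prop) (j : ℕ) : Prop where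
  h4 : 4 ≤ j
  F : D.FF κ.G
  ρ : ∀ a, UB D.P fun i => μ.ρ i a
  jj : UB D.P μ.j
  W : ∀ a, ∃ f : ∀ i, X i → M → μ.A, D.US f ∧
    D.A0 ε j fun i y x => hsL (κ.W i y a x) - f i (D.pt i y) x
  dat : Dat I k
  hB : ∀ i, (B i).OK I
  hm : ∀ i, (μ.m i).OK I (B i)
  hk : ∀ i y, k.OK (B i) (κ.F i y)
  sd : ∀ a b, UB D.P fun i x => (B i).sd x a b
  pp : UB (N := En (Fin μ.N)) D.P fun i => (μ.m i).pp (B i)
  w : ∀ t ∈ k.w, D.CbU t.1 ∧ D.CbU t.2.1 ∧ D.CbU t.2.2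
  e : ∀ t ∈ k.e, D.CbU t.1 ∧ D.CbU t.2.1 ∧ D.CbU t.2.2
  lb : ∃ c > 0, ∀ i y θ s, c ≤ ‖k.om (B i) (κ.F i y) (k.γ θ s)‖ ∧
    c ≤ ‖hsL (k.q0 (B i) (κ.F i y) (μ.m i) (k.γ θ s))‖
  vel : ∀ a, (pK D).mem fun q => k.vel (κ.F q.1.1 q.1.2) q.2.2 q.2.1 a

namespace Hy
variable (H : Hy k κ B ε j)
include H

theorem dd {g g' : M → ℝ} (hg : D.CbU g) (hg' : D.CbU g') :
    (eK D A).mem fun q => (B q.1.1).dd (κ.F q.1.1 q.1.2) g g' q.2 :=
  kl_toLp fun u => Kl.fsum _ fun t => Kl.mul (ek_ub (H.sd u t))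
    (Kl.mul (ek_us (us_dG H.F (US.fixed hg) t.1)) (ek_us (us_dG H.F (US.fixed hg') t.2)))

theorem c2 {w : (Σ i, Y i) × M → Eu (ι × ι)} (hw : (eK D A).mem w) :
    (eK D A).mem (N := En (Fin μ.N)) fun q => (μ.m q.1.1).c2 q.2 (w q) :=
  Kl.fsum _ fun u => Kl.smul (Kl.clm (EuclideanSpace.proj u) hw)
    (Kl.mulL (ek_ub (H.ρ u.1)) (ek_ub (H.ρ u.2)))

theorem om : (eK D A).mem fun q => k.om (B q.1.1) (κ.F q.1.1 q.1.2) q.2 :=
  kl_ls k.w fun t ht => Kl.smul (ek_ub (H.w t ht).1) (H.dd (H.w t ht).2.1 (H.w t ht).2.2)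

theorem pi : (eK D k.supp).mem (N := En (Fin μ.N)) fun q =>
    k.pi (B q.1.1) (κ.F q.1.1 q.1.2) (μ.m q.1.1) q.2 := by
  obtain ⟨c, hc, lb⟩ := H.lb
  have a := ek_inv (H.om (A := k.supp)) hc fun q ⟨z, e⟩ => e ▸ (lb q.1.1 q.1.2 z.1 z.2).1
  exact Kl.csmul _ (Kl.sub (ek_ub H.pp) (Kl.smul (kl_congr (Kl.csmul 2⁻¹ a) fun _ => mul_inv _ _)
    (Kl.mulL ((eK D _).const μ.Jc) (H.c2 H.om))))

theorem q0 : (eK D k.supp).mem (N := En (Fin μ.N)) fun q =>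
    k.q0 (B q.1.1) (κ.F q.1.1 q.1.2) (μ.m q.1.1) q.2 :=
  Kl.mulL (Kl.mulL H.pi (kl_ls k.e fun t ht => Kl.mulL (H.c2 (H.dd (H.e t ht).2.1 (H.e t ht).2.2))
    ((eK D _).app (ek_ub H.jj) (ek_ub (H.e t ht).1)))) H.pi

theorem qu : (eK D k.supp).mem (N := En (Fin μ.N)) fun q =>
    k.qu (B q.1.1) (κ.F q.1.1 q.1.2) (μ.m q.1.1) q.2 := by
  obtain ⟨c, hc, lb⟩ := H.lb
  have a := ek_inv (Kl.clm hsL H.q0) hc fun q ⟨z, e⟩ => e ▸ (lb q.1.1 q.1.2 z.1 z.2).2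
  exact Kl.smul (kl_congr (Kl.csmul 2 a) fun _ => div_eq_mul_inv _ _) H.q0

theorem A2 : (pK D).mem (N := En (Fin μ.N)) fun q =>
    k.A2 (B q.1.1) (κ.F q.1.1 q.1.2) (μ.m q.1.1) (κ.W q.1.1 q.1.2) q.2.2 q.2.1 :=
  have w : ∀ a, (pK D).mem fun q => κ.W q.1.1 q.1.2 a (k.γ q.2.2 q.2.1) := fun a =>
    let ⟨_, f1, f2⟩ := H.W a
    kl_congr (Kl.clm opL ((pK D).add (pk_a0 H.dat H.h4 f2) (pk_ek H.dat (ek_us f1)))) fun _ => by
      rw [sub_add_cancel, Wz78.opL_hsL]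
  kl_congr (kl_pa (Kl.fsum Finset.univ fun a => Kl.smul (H.vel a) (w a)) (pk_ek H.dat H.pi)
    (pk_der H.dat H.F H.vel H.pi) (pk_ek H.dat H.qu) (pk_der H.dat H.F H.vel H.qu))
    fun _ => A2_eq _ _ _ _

/-- **the symbol** -/
theorem sym : (scK D).mem (N := C(Ci, En (Fin μ.N))) fun q =>
    cm (k.sym (B q.1) (κ.F q.1 q.2) (μ.m q.1) (κ.W q.1 q.2)) := by
  obtain ⟨g, ⟨γ, g1, g2⟩, g3⟩ := H.A2
  obtain ⟨p, p1, p2⟩ := sc_ek H.dat H.pi
  have a : (scK D).mem fun q => Sy 0 (γ q.1 (D.pt _ q.2)) (p q.1 (D.pt _ q.2)) :=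
    ⟨_, uc_Sy 0 g1 p1, fun _ _ => rfl⟩
  refine kl_congr ((scK D).add a (Kl.clm (cst _) (sc_ek H.dat (ek_ub H.pp)))) fun q => ?_
  have c : ∀ a, ContinuousOn (κ.W q.1 q.2 a) k.supp := fun a => let ⟨_, f1, f2⟩ := H.W a
    (((f2.sz.add f1.sz).clm opL).sm q.1 q.2).continuous.continuousOn.congr fun _ _ => by
      simp only [sub_add_cancel, Wz78.opL_hsL]
  rw [cm_sym (H.hB _) (H.hm _) (H.hk _ _) c, Psi, ← c2_A2 (H.hB _) (H.hm _) (H.hk _ _) c, Sy_eq,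
    ← g2, ← p2]
  exact congrArg (fun a => Sy 0 a _ + _) (cm_eq fun z => (g3 (q, z)).symm)

/-- the coefficient of a term -/
theorem tc {x : (Σ i, Y i) → En (Fin μ.N)} (h : (scK D).mem x) (w : ℂ) :
    (scK D).mem (N := En (Fin μ.N)) fun q => k.pi (B q.1) (κ.F q.1 q.2) (μ.m q.1) k.x0 *
      csE μ.Jc w * x q * k.pi (B q.1) (κ.F q.1 q.2) (μ.m q.1) k.x0 :=
  have p := sc_ek H.dat H.pi
  Kl.mulL (Kl.mulL (Kl.mulL p ((scK D).const _)) h) p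

end Hy

theorem sc_proj {κ : Type} [Fintype κ] (Jc : En κ) (p : J → En κ) :
    (scK D).mem fun q => (Hd Jc (p q.1)).starProjection :=
  sc_fixed (a := fun i => (Hd Jc (p i)).starProjection)
    ⟨1, fun _ => Submodule.starProjection_norm_le _⟩

end Crest.Agent.X212.Top11.Cu
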