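import Crest.Agent.X212.Top11.Jn
import Crest.Agent.X212.Br55.Rf
import Crest.Agent.X212.Br55.Lf
import Crest.Agent.X212.Tm38.W
import Crest.Agent.X212.Ins26.Defs
import Crest.Agent.X212.G75.Tm
import Crest.Agent.X212.Rf65.Rs
import Crest.Agent.X212.Brn93.Defs
import Crest.Agent.X212.Line51.Mc
import Crest.Agent.X212.Gl9.Tab
import Crest.Agent.X212.Lns95.Lf

/-!
# Row 212, TOP (helper11): the situation of layer P and its open inputs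
-/

set_option autoImplicit false
noncomputable section
open Set Function Filter Matrix

namespace Crest.Agent.X212.Top11
open M G75 Wd38 Nm96 Br55
open Rod53 (Z2)
open Line51 (K3 IsN)
open Tm38 (FactW)

/-- frame indices -/
abbrev κ0 : Type := Fin 6 ⊕ Fin 8

/-- line indices -/
abbrev l0 : Type := K3 ⊕ K3

/-- the model of a lens wall -/
structure LmOK (Lm : LM κ0 l0) : Prop where
  cut : CutOK Lm
  sup : ∀ s, (Lm.cut s).supp ⊆ (Lm.M.sys.w ()).sd false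
  deg : ∀ s, Csm97.Dat Lm.X.I (Lm.cut s) ∧ Cut54.Deg (fun θ r => (Lm.N s).p ((Lm.cut s).γ θ r)) 2
  lok : ∃ K : Lns95.LOK Lm 4, ∀ σ, K.k σ = cond σ (-2) 2 ∧ |K.k σ| = 2
  sp : Lm.M.Spare
  spl : ∀ s, (Lm.N s).Spare
  lx : Lns95.LX Lm

/-- the predicates of the counting theory -/
def T0 (Lm : LM κ0 l0) : Th Lm := ⟨0, Rf65.RS, Rf65.DS, YD κ0 l0, G75.Tm, Brn93.NV⟩

/-- **the situation** -/
structure Sit {Γ : Nm} {C : Cx Γ} {G : Tab C.kd κ0} {P : Pm Γ} (L : LP C G P l0) (μ : ℕ → ℤ × ℤ) : Prop where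
  ent : ∃ c ci, Ent P P.kL c ci
  std : ∀ τ, Gl9.Std C.kd τ (G.g τ).e
  nat : Mv27.Nat L
  natL : ∃ V : Matrix l0 K3 ℂ, Vᴴ * V = 1 ∧
    ∀ {w ls} (h : (f0 w ls).OK P) {n} (hn : (f0 w ls).LOK P n) μ, IsN V (L.W h hn μ) (L.N h hn μ)
  lm : LmOK L.Lm
  nM : NbM L.L l0
  nL : ∃ m, (∀ k, (μ k).2 = m) ∧ NbL L.L l0 P.M m ∧ NbH L.L l0 P.M m
  nF : NbF L.L l0 μ
  nv : NvStmt L μ Brn93.NV

/-- a property of all situations -/
def All (Q : ∀ {Γ : Nm} {C : Cx Γ} {G : Tab C.kd κ0} {P : Pm Γ}, LP C G P l0 → (ℕ → ℤ × ℤ) → Prop) : Prop :=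
  ∀ Γ C G P (L : @LP Γ κ0 _ C G P l0 _ _) μ, Sit L μ → Q L μ

/-- there is no word theory -/
def WdL (a a' : Z2) : Prop := ∃ M, 13 ≤ M ∧ ∀ T, Ax0 (pm a a' M) T → ¬FactW (pm a a' M) T

/-- **the open inputs of layer P** -/
structure PL : Prop where
  w1 : ∀ q > 0, WdL (q, 1) (q, -1) ∨ WdL (q, 1) (-q, 1)
  w2 : WdL (1, 2) (1, -2)
  tm : All fun {_ _ _ P} L μ => Lvs L (Ins26.th (T0 _)) μ → AbS L → HgS L → ∀ j,
    (wth (Ins26.th (T0 L.Lm)) μ j).Fact P → FactW P (wth (Ins26.th (T0 L.Lm)) μ j)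
  can : All fun L _ => CanStmt L
  ab : All fun L _ => AbS L
  hg : All fun L _ => HgS L
  rs : All fun L _ => RsStmt L Rf65.RS
  kit : ∀ Lm, LmOK Lm → Ins26.KitStmt Lm
  lens : ∀ Lm, LmOK Lm → Ins26.LensStmt Lm
  cnt : Ins26.CntStmt κ0 l0
  ex : ∀ Lm, LmOK Lm → Ins26.ExStmt Lm
  rf : ∀ Lm, LmOK Lm → Ins26.Core Lm → Ins26.RfStmt (T0 Lm)
  fact : ∀ Lm, LmOK Lm → Ins26.Core Lm → Ins26.FactStmt (T0 Lm)
  nv : ∀ Lm, LmOK Lm → Ins26.Core Lm → Ins26.NvStmt (T0 Lm)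

end Crest.Agent.X212.Top11
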