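import Crest.Agent.X212.Wd38.Ctx
import Crest.Agent.X212.Wd38.P0
import Crest.Agent.X212.Brn93.Typ
import Crest.Agent.X212.Mv27.Defs

/-!
# Row 212, TOP (helper11): names, the cosmetic diffeomorphism, lines across the junctions
-/

set_option autoImplicit false
noncomputable section
open Set Function Matrix
open scoped ContDiff Manifold
open Crest.GeometryTopology.DehnSurgery

namespace Crest.Agent.X212.Top11
open M Wd38 Nm96
open Rod53 (Z2 uni_s E3)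
open Ext52 (KD Fill)
open Line51 (K3 LCx Uni Sec SF)
open Orx52 (Pos oF)
open Sep15 (CM End Jo)

/-- inverse junctions -/
inductive Iv : Jn → Jn → Prop
  | f : Iv .f .fi
  | fi : Iv .fi .f
  | c : Iv .c .ci

/-- matched orders -/
def okJ (p : ℤ) : Jn → ℤ → ℤ → Prop
  | .f, i, j => p ∣ i - j
  | .fi, i, j => p ∣ j - i
  | _, _, _ => True

/-- the parameters -/
def pm (a a' : Z2) (M : ℝ) : Pm (nm a a') := ⟨⟨okJ a.2, 1⟩, Iv, false, M⟩

theorem ent (a a' : Z2) {M : ℝ} (h : 13 ≤ M) : Ent (pm a a' M) false .c .ci :=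
  ⟨rfl, rfl, rfl, rfl, rfl, .c, .inl rfl, ⟨1, trivial, trivial⟩, h⟩

/-- the two slopes -/
structure Slp (a a' : Z2) : Prop where
  pr : Pr a
  pr' : Pr a'
  two : a.2 ∣ 2
  dvd : a.2 ∣ a'.2
  ne : a'.2 ≠ 0

theorem Slp.hJ {a a' : Z2} (h : Slp a a') (J : Jn) : ((nm a a').src J).2.2 ≠ 0 ∧ ((nm a a').tgt J).2.2 ≠ 0 := by
  have := ne_zero_of_dvd_ne_zero two_ne_zero h.two
  cases J <;> simp [this, h.ne]

theorem exists_g {k : KD} {p q q' ε : ℤ} (h : Nrm38.Cos k p q q') (h1 : IsCoprime p q) (h2 : IsCoprime p q')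
    (hε : ε = 1 ∨ ε = -1) {a' : Z2} (e' : a' = (ε * q', ε * p)) :
    ∃ g : Fill k.toTube (fd (q, p)) ≃ₘ^∞⟮𝓡 3, 𝓡 3⟯ Fill k.toTube (fd a'),
      Pos (𝓡 3) (𝓡 3) g univ (oF _ _) (oF _ _) := by
  subst e'
  obtain ⟨g, e⟩ := h _ _ (fd_p (pr_of h1)).1 (fd_p (pr_of h1)).2 (fd_p (pr_of h2)).1 (fd_p (pr_of h2)).2
  have c : Pr (ε * q', ε * p) := pr_of (by
    rcases hε with rfl | rfl <;> simpa only [one_mul, neg_mul, IsCoprime.neg_neg_iff] using h2)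
  exact ⟨_, Orx52.pos_of_posD (Skel83.posD_rep (k.toTube.signRep _ _ (.inl rfl) (one_mul _).symm (one_mul _).symm)
    (k.toTube.signRep (fd (ε * q', ε * p)) _ hε (by rw [(fd_p c).1, (fd_p (pr_of h2)).1])
      (by rw [(fd_p c).2, (fd_p (pr_of h2)).2])) g e)⟩

theorem dvd_a {p : ℤ} (σ : FillingData) (h : p ∣ 2) (h' : p ∣ σ.p) : p ∣ σ.a - 1 := by
  have e : σ.a - 1 = σ.q * ((σ.a - 1) * (σ.a - 1 + 1)) - σ.p * (σ.b * (σ.a - 1)) := by
    linear_combination (1 - σ.a) * σ.det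
  exact e ▸ ((h.trans (Int.even_mul_succ_self _).two_dvd).mul_left _).sub (h'.mul_right _)

section gen
variable {Γ : Nm} (C : Cx Γ)

/-- the lines on the fillings -/
abbrev SS : Type := ∀ (τ : Γ.ι × Z2) (_ : ℤ), Sec E3 (mF C.kd τ).M K3

/-- they have the right orders -/
abbrev SS.OK {C : Cx Γ} (S : SS C) : Prop := ∀ τ i, SF (C.F τ rfl) (uni_s (fd τ.2)) i (S τ i)

theorem exists_S : ∃ S : SS C, S.OK := by
  choose S h using fun τ i => Line51.exists_SF (F := C.F τ rfl) (hu := uni_s (fd τ.2)) i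
  exact ⟨S, h⟩

variable {C} {S : SS C} (hS : S.OK) {J : Γ.J} {i j : ℤ}
include hS

theorem across (h : Slp (Γ.src J).2 (Γ.tgt J).2) (hd : (Γ.src J).2.2 ∣ i - j) :
    ∃ u, Uni (𝓡 3) (S _ i).L.p (fun y => (S _ j).L.p (C.g J y)) u univ := by
  have e := (fd_p h.pr).1
  have e' := (fd_p h.pr').1
  have l := fun τ i y => (hS τ i).ok.ln.prj y trivial
  have r := fun τ i y => Pic56.Rk1.of_trace (l τ i y).herm (l τ i y).idem ((hS τ i).ok.ln.tr y trivial)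
  obtain ⟨u, hu⟩ := Pic56.liso_across (k := C.kd (Γ.src J).1) (k' := C.kd (Γ.tgt J).1) (C.g J) (e ▸ h.two)
    (fun y => (hS _ i).ok.ln.sm y trivial) (fun y => (hS _ j).ok.ln.sm y trivial) (r _ i) (r _ j)
    (Brn93.sf_type (hS _ i)) (Brn93.sf_type (hS _ j)) (by
      have := ((dvd_a _ h.two (e' ▸ h.dvd)).mul_right j).sub ((dvd_a _ h.two e.symm.dvd).mul_right i) |>.sub hd
      rw [e]
      exact (congrArg _ (by ring)).mp this)
  exact ⟨u, Line51.uni_of_liso hu fun y => (l _ i y).idem⟩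

end gen

theorem uni_inv {t t' σ σ'} (g : Fill t σ ≃ₘ^∞⟮𝓡 3, 𝓡 3⟯ Fill t' σ') {p q} {u : Fill t σ → Matrix K3 K3 ℂ}
    (h : Uni (𝓡 3) p (fun y => q (g y)) u univ) :
    Uni (𝓡 3) q (fun y => p (g.symm y)) (fun y => (u (g.symm y))ᴴ) univ :=
  (h.symm.comp ⟨fun y _ => g.symm.contMDiff y, mapsTo_univ _ _⟩).congr_p (fun y _ => by simp) fun _ _ => rfl

/-- **the lines across the junctions** -/
theorem exists_lx {k : KD} {a a' : Z2} {g : Fill k.toTube (fd a) ≃ₘ^∞⟮𝓡 3, 𝓡 3⟯ Fill k.toTube (fd a')}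
    (hg : Pos (𝓡 3) (𝓡 3) g univ (oF _ _) (oF _ _)) {Y : CM 3} {C₁ C₂ : End Y} {X : CM 4} [ConnectedSpace X]
    (J : Jo C₁ C₂ X) {ρ : Fill (Cab39.cable k).toTube (fd (1, 0)) ≃ₘ^∞⟮𝓡 3, 𝓡 3⟯ Y} {o O}
    (hρ : Pos (𝓡 3) (𝓡 3) ρ univ (oF _ _) o) (h : Int54.Ori (𝓡 4) O) (hO : Bb31.Cy o O (J.i₁ ∘ C₁.j))
    (s : Slp a a') (M : ℝ) : ∃ (S : SS (cx k hg J hρ h hO)) (u : _), S.OK ∧
      (∀ j i i', (pm a a' M).Λ.ok j i i' → Uni (𝓡 3) (S _ i).L.p
        (fun q => (S _ i').L.p ((cx k hg J hρ h hO).g j q)) (u j i i') univ) ∧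
      ∀ K : LCx (cx k hg J hρ h hO) (pm a a' M).Λ, K.S = S → K.u = u → ∀ j j', Iv j j' → Mv27.LInv K j j' := by
  obtain ⟨S, hS⟩ := exists_S (cx k hg J hρ h hO)
  have o : ∀ q : ℤ, Pr (q, 1) := fun _ => pr_of isCoprime_one_left
  choose! uf hf using fun i j => across hS (J := .f) (i := i) (j := j) s
  choose uc hc using fun i j => across hS (J := .c) (i := i) (j := j) ⟨o _, o _, one_dvd _, one_dvd _, one_ne_zero⟩
    (one_dvd _)
  refine ⟨S, fun j => match j with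
    | .f => uf
    | .fi => fun i i' q => (uf i' i (g.symm q))ᴴ
    | .c => uc
    | .ci => fun i i' q => (uc i' i (((cx k hg J hρ h hO).g .c).symm q))ᴴ, hS, fun j i i' e => ?_, ?_⟩
  · cases j
    exacts [hf _ _ e, uni_inv g (hf _ _ e), hc _ _, uni_inv (exists_gc k).choose (hc _ _)]
  rintro ⟨_, _, _, _, _, _, _, _, _, _⟩ rfl rfl _ _ (_ | _ | _)
  · refine ⟨inv_f .., fun i i' e _ q _ t => ?_⟩
    cases t
    exact (congrArg (fun z => (uf i i' z)ᴴ * _) (g.symm_apply_apply q)).trans ((hf _ _ e).iso q trivial).src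
  · refine ⟨inv_fi .., fun i i' e _ q _ t => ?_⟩
    cases t
    exact ((hf _ _ e).iso _ trivial).tgt.trans (congrArg _ (g.apply_symm_apply q))
  · refine ⟨inv_c .., fun i i' _ _ q _ t => ?_⟩
    cases t
    exact (congrArg (fun z => (uc i i' z)ᴴ * _) (Diffeomorph.symm_apply_apply _ q)).trans
      ((hc _ _).iso q trivial).src

end Crest.Agent.X212.Top11
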