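import Crest.Agent.X212.Wd38.P0

/-!
# Row 212, TOP (helper11): a word with a lens arc
-/

set_option autoImplicit false

namespace Crest.Agent.X212.Top11
open Wd38 Nm96 Rod53

variable {Γ : Nm} {P : Pm Γ} {c ci : Γ.J}

/-- the rods -/
def lv (j : ℤ) : Z2 :=
  if j ≤ 5 then (6 - j, 1) else if j ≤ 11 then lrd 7 j else (j - 13, 1)

/-- the word -/
def lw (k : Γ.ι) (c ci : Γ.J) : Shp Γ := ⟨0, 18, fun j => if j = 0 ∨ j = 18 then .rod Γ.cap else
  if j = 1 then .rod (Γ.src c) else if j = 2 then .jn c else if j = 17 then .jn ci else .rod (k, lv j)⟩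

/-- the orders -/
def ln (x y : ℤ) : Wt := ⟨fun j => if j ≤ 2 ∨ j = 18 then x else if j = 17 then y else 1,
  fun j => if j ≤ 1 ∨ 17 ≤ j then x else if j = 2 then y else 1, 0, 0⟩

theorem lens (E : Ent P P.kL c ci) : ∃ (F : Fm Γ) (n : Wt) (l : Bs), F.OK P ∧ F.LOK P n ∧ l ∈ F.ls := by
  obtain ⟨y, o1, o2⟩ := E.ok
  have st : ∀ j, 0 < j → j ≤ 18 → Vc (lw P.kL c ci) (ln P.Λ.x y) j := fun j a b => by
    interval_cases j <;>
      simp [Vc, Stp, Shp.lf, Shp.rt, lw, ln, lv, lrd, Sl.l, Sl.r, E.cap, E.src, E.tgt, E.src', E.tgt', Uni, PM, dt]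
  have pr : ∀ a b : ℤ, |a| = 1 ∨ |b| = 1 → Pr (a, b) := fun a b h => by
    rcases h with h | h
    · exact ⟨(0, 1), by simpa [Uni, dt] using abs_eq zero_le_one |>.1 h⟩
    · exact Uni.symm (a := (1, 0)) (by simpa [Uni, dt] using abs_eq zero_le_one |>.1 h) |> Exists.intro _
  refine ⟨⟨lw P.kL c ci, ∅, {.lA 7 10}⟩, ln P.Λ.x y, _, ⟨⟨by simp [lw], rfl, rfl, fun j a b => ?_,
    fun j a b => (st j a b).1⟩, by simp, ?_, by simp, by simp⟩, ⟨⟨by simp [lw, ln], by simp [lw, ln],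
    fun j τ a b => ?_, fun j J a b => ?_, fun j a b => (st j a b).2.1, fun j a b => (st j a b).2.2⟩, rfl, rfl,
    by simp [ln, Bs.lo, Bs.hi]⟩, Finset.mem_singleton_self _⟩
  · change 0 ≤ j at a
    change j ≤ 18 at b
    rw [show ∀ s : Sl Γ, s.l.2 = (s.l.2.1, s.l.2.2) from fun _ => rfl,
      show ∀ s : Sl Γ, s.r.2 = (s.r.2.1, s.r.2.2) from fun _ => rfl]
    constructor <;> apply pr <;> interval_cases j <;>
      simp [lw, lv, lrd, Sl.l, Sl.r, E.cap, E.src, E.tgt, E.src', E.tgt']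
  · simp only [Finset.mem_singleton, forall_eq]
    refine ⟨7, rfl, by simp [lw], by simp [lw], fun j a b => ?_⟩
    interval_cases j <;> simp [lw, lv]
  all_goals
    change 0 < j at a
    change j < 18 at b
    interval_cases j <;> simp [lw, ln]
  all_goals
    rintro rfl
    assumption

end Crest.Agent.X212.Top11
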