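import Crest.Agent.X212.Wd38.Sh

/-!
# Row 212 (helper11): rod structures that agree up to signs and a translation

If `v' (t + d) = ± v t` for all `t`, the map `sg T d v v' : X T v → X T v'` is a positive diffeomorphism that is
the translation by `d` in all charts.
-/

set_option autoImplicit false
set_option linter.unusedSectionVars false

open Set Filter Topology Function
open scoped ContDiff Manifold
open Crest.Agent.R208.F (Ext)

noncomputable section

namespace Crest.Agent.X212.Top11.Sg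

open Crest.Agent.X212.Glue52 Crest.Agent.X212.Rod53 Crest.Agent.X212.Int54 Crest.Agent.X212.Orx52
open Crest.Agent.X212.Cyl58 hiding ld_id ld_congr ld_of_comp ld_comp
open Crest.Agent.X212.Wd38 (tend_sub tm_add ld_add pos_add)

variable {EN HN : Type} [NormedAddCommGroup EN] [NormedSpace ℝ EN] [FiniteDimensional ℝ EN]
  [TopologicalSpace HN] {IN : ModelWithCorners ℝ EN HN} [IN.Boundaryless]
  {N : Type} [TopologicalSpace N] [ChartedSpace HN N] [IsManifold IN ∞ N] [T2Space N]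
  {T : Tb IN N} {v v' v'' : ℝ → Z2} {a b : Z2} {c d x : ℝ}

theorem fn_fn {p : X T v} (hp : p ∈ T.ag v v') :
    fn T T id v' v'' (fn T T id v v' p) = fn T T id v v'' p := by
  rw [fn, (TE.refl T).nf_fn hp, fn]
  cases T.nf v p <;> rfl

/-- translation and sign -/
def nG (v v' : ℝ → Z2) (d : ℝ) : (N × ℝ) ⊕ (ℝ × Circle) → (N × ℝ) ⊕ (ℝ × Circle) :=
  Sum.map (fun q => (q.1, q.2 + d)) fun q => (q.1 + d, if v' (q.1 + d) = v q.1 then q.2 else q.2⁻¹)

variable (T d v v') in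
/-- the map -/
def sg (p : X T v) : X T v' := invFun (T.nf v') (nG v v' d (T.nf v p))

theorem sg_of {p : X T v} {q : X T v'} (e : T.nf v' q = nG v v' d (T.nf v p)) : sg T v v' d p = q := by
  rw [sg, ← e]
  exact leftInverse_invFun (T.nf_injective v') q

theorem sg_ext {s : N × ℝ} (h : s.1 ∈ T.Ex) : sg T v v' d (T.ext v s) = T.ext v' (s.1, s.2 + d) :=
  sg_of (by rw [T.nf_ext h, T.nf_ext (p := (s.1, s.2 + d)) h]; rfl)

/-- agreement up to signs and a translation -/
def Sn (v v' : ℝ → Z2) (d : ℝ) : Prop := ∀ t, PM (v' (t + d)) (v t)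

namespace Sn

variable (h : Sn v v' d)
include h

theorem symm : Sn v' v (-d) := fun t => by simpa using (h (t + -d)).symm

theorem sub (y : ℝ) : PM (v' y) (v (y - d)) := by simpa using h (y - d)

theorem jr (k : x ∈ Jr v a) : x + d ∈ Jr v' a :=
  mem_Jr.2 (((tend_sub x d).eventually (mem_Jr.1 k)).mono fun y e => (h.sub y).trans e)

theorem jv (k : x ∈ Jv v a b c) : x + d ∈ Jv v' a b (c + d) :=
  mem_Jv.2 (((tend_sub x d).eventually (mem_Jv.1 k)).mono fun y e =>
    ⟨fun l => (h.sub y).trans (e.1 (by linarith)), fun l => by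
      rcases h.sub y with m | m <;> rw [m, e.2.1 (by linarith)]
      exact neg_zero, fun l => (h.sub y).trans (e.2.2 (by linarith))⟩)

theorem Φr (w : (Circle × ℂ) × ℝ) : T.Φr v' a b (w.1, w.2 + d) = nG v v' d (T.Φr v a b w) := by
  by_cases k : w.1.2 = 0
  · rw [T.Φr_zero k, T.Φr_zero (w := (w.1, w.2 + d)) k]
    by_cases e : v' (w.2 + d) = v w.2
    · simp [nG, e]
    · refine congrArg Sum.inr (Prod.ext rfl ?_)
      simp only [if_neg e]
      rw [(h w.2).resolve_left e, dt_neg_left, zpow_neg]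
  · rw [T.Φr_ne k, T.Φr_ne (w := (w.1, w.2 + d)) k]
    rfl

theorem Φv (z : ℂ × ℂ) : T.Φv v' a b (c + d) z = nG v v' d (T.Φv v a b c z) := by
  by_cases k : z.1 = 0
  · rw [Tb.Φv, Tb.Φv, if_pos k, if_pos k, ← h.Φr, hL, hL, tm_add]
  · rw [T.Φv_R k, T.Φv_R k, ← h.Φr, hR, hR, tm_add]

theorem ur {w : (Circle × ℂ) × ℝ} (hw : w ∈ Ur v a) : (w.1, w.2 + d) ∈ Ur v' a := hw.imp_right h.jr

theorem uv {z : ℂ × ℂ} (hz : z ∈ Uv v a b c) : z ∈ Uv v' a b (c + d) :=
  hz.imp_right fun l => tm_add z ▸ h.jv l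

theorem rod (hu : Uni a b) {w : (Circle × ℂ) × ℝ} (hw : w ∈ Ur v a) :
    sg T v v' d (T.rod v hu w) = T.rod v' hu (w.1, w.2 + d) :=
  sg_of (by rw [T.nf_rod hu hw, T.nf_rod hu (h.ur hw), h.Φr])

theorem vtx (hu : Uni a b) {z : ℂ × ℂ} (hz : z ∈ Uv v a b c) :
    sg T v v' d (T.vtx v hu c z) = T.vtx v' hu (c + d) z :=
  sg_of (by rw [T.nf_vtx hu hz, T.nf_vtx hu (h.uv hz), h.Φv])

theorem ld (p : X T v) : IsLocalDiffeomorphAt (𝓡 4) (𝓡 4) ∞ (sg T v v' d) p := by
  induction p using T.ind with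
  | h1 q x hq =>
    refine ld_of_comp (ld_pd (T.ext v) (mk_mem_prod hq (mem_univ x))) (ld_congr
      ((ld_prodMap_at (ld_id q) (ld_add d x)).comp _ _
        (ld_pd (T.ext v') (mk_mem_prod hq (mem_univ _)))) ?_)
    filter_upwards [(T.isOpen_Ex.preimage continuous_fst).mem_nhds hq] with z hz using sg_ext hz
  | h2 a b hu u x hx =>
    refine ld_of_comp (ld_pd (T.rod v hu) (Or.inr hx)) (ld_congr
      ((ld_prodMap_at (ld_id _) (ld_add d x)).comp _ _ (ld_pd (T.rod v' hu) (Or.inr (h.jr hx)))) ?_)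
    filter_upwards [isOpen_Ur.mem_nhds (Or.inr hx)] with z h1 using h.rod hu h1
  | h3 a b hu c hc =>
    refine ld_of_comp (ld_pd (T.vtx v hu c) (Tb.zero_mem_Uv hc)) (ld_congr
      (ld_pd (T.vtx v' hu (c + d)) (h.uv (Tb.zero_mem_Uv hc))) ?_)
    filter_upwards [isOpen_Uv.mem_nhds (Tb.zero_mem_Uv hc)] with z h1 using h.vtx hu h1

theorem inv (p : X T v) : sg T v' v (-d) (sg T v v' d p) = p := by
  induction p using T.ind with
  | h1 q x hq => rw [sg_ext (s := (q, x)) hq, sg_ext (s := (q, x + d)) hq, add_neg_cancel_right]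
  | h2 a b hu u x hx => rw [h.rod hu (Or.inr hx), h.symm.rod hu (h.ur (Or.inr hx)), add_neg_cancel_right]
  | h3 a b hu c hc =>
    rw [h.vtx hu (Tb.zero_mem_Uv hc), h.symm.vtx hu (h.uv (Tb.zero_mem_Uv hc)), add_neg_cancel_right]

variable (T) in
/-- the diffeomorphism -/
def dif : X T v ≃ₘ^∞⟮𝓡 4, 𝓡 4⟯ X T v' where
  toFun := sg T v v' d
  invFun := sg T v' v (-d)
  left_inv := h.inv
  right_inv p := by simpa using h.symm.inv p
  contMDiff_toFun p := (h.ld p).contMDiffAt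
  contMDiff_invFun p := (h.symm.ld p).contMDiffAt

theorem pos {o : N → Ext EN} {O : X T v → Ext E4} {O' : X T v' → Ext E4} (k : OX T v o O) (k' : OX T v' o O') :
    Pos (𝓡 4) (𝓡 4) (h.dif T) univ O O' := by
  refine k.pos_of isOpen_univ (fun p _ => h.ld p) k'.ori (Pos.mono ?_ inter_subset_left)
  refine (k'.ext.comp ((pos_id.2 k.ex.same).prodMap (pos_add d) (fun y _ => ld_id y) fun z _ => ld_add d z)
    (fun _ => ldp (T.ext v')) (fun z _ => ld_prodMap_at (ld_id z.1) (ld_add d z.2))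
    fun z hz => ⟨hz.1, trivial⟩).congr (T.isOpen_Ex.prod isOpen_univ) fun z hz => ?_
  exact sg_ext hz.1

theorem cyf {EY HY : Type} [NormedAddCommGroup EY] [NormedSpace ℝ EY] [TopologicalSpace HY]
    {IY : ModelWithCorners ℝ EY HY} {Y : Type} [TopologicalSpace Y] [ChartedSpace HY Y] (F : Fl T a b IY Y)
    (hu : Uni a b) (y : Y) (k : x ∈ Jr v a) : h.dif T (F.cyf v hu (y, x)) = F.cyf v' hu (y, x + d) := by
  rcases F.surj y with ⟨q, rfl⟩ | ⟨w, rfl⟩
  · rw [F.cyf_ie, F.cyf_ie]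
    exact sg_ext (s := (q.1, x)) ((F.hW _).1 q.2)
  · rw [F.cyf_it, F.cyf_it]
    exact h.rod hu (w := (w, x)) (Or.inr k)

end Sn

end Crest.Agent.X212.Top11.Sg
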